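import Vale.Agent.P333.PT.ListP
import Vale.Agent.P333.M.AuctionL

/-!
P333: the auction is a polynomial time function.
-/

namespace Vale.Agent.P333.PT

open Vale.Agent.P337 Vale.Agent.P333 Polynomial

theorem code_nat_length_le (n : ℕ) : (Code.code n).length ≤ n := by
  rw [code_nat_length]
  exact Nat.size_le.2 Nat.lt_two_pow_self

theorem codeL_length_le {m : ℕ} (l : List ℕ) (h : ∀ x ∈ l, x ≤ m) :
    (Code.code l).length ≤ l.length * (2 * m + 2) := by
  show (codeL l).length ≤ _
  induction l with
  | nil => simp [codeL]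
  | cons x l ih =>
    have h1 := ih fun y hy => h y (List.mem_cons_of_mem _ hy)
    have h2 := code_nat_length_le x
    have h3 := h x List.mem_cons_self
    rw [codeL, length_pairL, List.length_cons, add_mul, one_mul]
    omega

/-! ### the best object -/

section

variable {α : Type} [Code α]

theorem foldl_best_le {n : ℕ} (a : ℕ → ℕ) (p : List ℕ) (l : List ℕ) (h : ∀ k ∈ l, k < n) (b : ℕ)
    (hb : b ≤ n) :
    l.foldl (fun b k => if a b + p.getD k 0 < a k + p.getD b 0 then k else b) b ≤ n := by
  induction l generalizing b with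
  | nil => exact hb
  | cons k l ih =>
    rw [List.foldl_cons]
    apply ih fun x hx => h x (List.mem_cons_of_mem _ hx)
    split_ifs
    · exact (h k List.mem_cons_self).le
    · exact hb

theorem bestObj_le (n : ℕ) (a : ℕ → ℕ) (p : List ℕ) : Auction.bestObj n a p ≤ n :=
  foldl_best_le a p _ (fun _ hk => List.mem_range.1 hk) 0 (Nat.zero_le n)

theorem bestObjP {n : α → ℕ} {u : α → ℕ → ℕ} {p : α → List ℕ} (hn : PTime n)
    (hu : PTime fun x : α × ℕ => u x.1 x.2) (hp : PTime p) (q : ℕ[X])
    (hq : ∀ a, n a ≤ q.eval (Code.code a).length) :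
    PTime fun a => Auction.bestObj (n a) (u a) (p a) := by
  have hst : PTime fun x : α × ℕ × ℕ =>
      if decide (u x.1 x.2.1 + (p x.1).getD x.2.2 0 < u x.1 x.2.2 + (p x.1).getD x.2.1 0) then x.2.2
        else x.2.1 := by
    have e1 : PTime fun x : α × ℕ × ℕ => x.2.1 := PTime.fst.comp PTime.snd
    have e2 : PTime fun x : α × ℕ × ℕ => x.2.2 := PTime.snd.comp PTime.snd
    have e3 : PTime fun x : α × ℕ × ℕ => p x.1 := hp.comp PTime.fst
    have f1 : PTime fun x : α × ℕ × ℕ => u x.1 x.2.1 := hu.comp (PTime.fst.pair e1)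
    have f2 : PTime fun x : α × ℕ × ℕ => u x.1 x.2.2 := hu.comp (PTime.fst.pair e2)
    exact PTime.ite (PTime.lt (PTime.add f1 (PTime.lgetD e3 e2 (PTime.const 0)))
      (PTime.add f2 (PTime.lgetD e3 e1 (PTime.const 0)))) e2 e1
  refine (PTime.foldl (PTime.lrange hn q hq) (PTime.const 0) hst q fun a i _ => ?_).congr
    fun a => ?_
  · refine (code_nat_length_le _).trans (le_trans ?_ (hq a))
    simp only [decide_eq_true_eq]
    exact foldl_best_le _ _ _ (fun k hk => List.mem_range.1 (List.mem_of_mem_take hk)) 0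
      (Nat.zero_le _)
  · simp only [decide_eq_true_eq]
    rfl

end

/-! ### one bid -/

/-- a bid without `match` -/
theorem bid_eq' (n : ℕ) (w : ℕ → ℕ → ℕ) (s : List ℕ × List ℕ) :
    Auction.bid n w s =
      if (List.range n).any (fun i => !(s.2.any fun y => decide (y = i + 1))) then
        (s.1.set (Auction.bestObj n
            (w (((List.range n).find? (fun i => !(s.2.any fun y => decide (y = i + 1)))).getD 0)) s.1)
          (s.1.getD (Auction.bestObj n
            (w (((List.range n).find? (fun i => !(s.2.any fun y => decide (y = i + 1)))).getD 0)) s.1)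
            0 + 1),
          s.2.set (Auction.bestObj n
            (w (((List.range n).find? (fun i => !(s.2.any fun y => decide (y = i + 1)))).getD 0)) s.1)
            (((List.range n).find? (fun i => !(s.2.any fun y => decide (y = i + 1)))).getD 0 + 1))
      else s := by
  have hc : ∀ i : ℕ, s.2.contains (i + 1) = s.2.any fun y => decide (y = i + 1) := by
    intro i
    rw [Bool.eq_iff_iff, List.contains_iff_mem, List.any_eq_true]
    simp
  unfold Auction.bid
  simp only [hc]
  cases h : (List.range n).find? (fun i => !(s.2.any fun y => decide (y = i + 1))) with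
  | none =>
    rw [if_neg]
    intro h2
    rw [List.any_eq_true] at h2
    obtain ⟨x, hx, hx2⟩ := h2
    rw [List.find?_eq_none] at h
    exact h x hx hx2
  | some i =>
    rw [if_pos]
    · simp only [Option.getD_some]
    · have h2 := List.find?_some h
      rw [List.any_eq_true]
      exact ⟨i, List.mem_of_find?_eq_some h, h2⟩

section

variable {α : Type} [Code α]

theorem bidP {n : α → ℕ} {w : α → ℕ → ℕ → ℕ} {s : α → List ℕ × List ℕ} (hn : PTime n)
    (hw : PTime fun x : α × ℕ × ℕ => w x.1 x.2.1 x.2.2) (hs : PTime s) (q : ℕ[X])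
    (hq : ∀ a, n a ≤ q.eval (Code.code a).length) :
    PTime fun a => Auction.bid (n a) (w a) (s a) := by
  have s1 : PTime fun a => (s a).1 := PTime.fst.comp hs
  have s2 : PTime fun a => (s a).2 := PTime.snd.comp hs
  have hr := PTime.lrange hn q hq
  have hfree : PTime fun x : α × ℕ => !((s x.1).2.any fun y => decide (y = x.2 + 1)) := by
    have e1 : PTime fun x : α × ℕ => (s x.1).2 := s2.comp PTime.fst
    have e2 : PTime fun z : (α × ℕ) × ℕ => decide (z.2 = z.1.2 + 1) :=
      PTime.eq PTime.snd (PTime.add (PTime.snd.comp PTime.fst) (PTime.const 1))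
    exact PTime.not (PTime.lany (p := fun (x : α × ℕ) y => decide (y = x.2 + 1)) e1 e2)
  have hf := PTime.lfindD (p := fun a i => !((s a).2.any fun y => decide (y = i + 1))) hr hfree
    (PTime.const 0)
  have hany := PTime.lany (p := fun a i => !((s a).2.any fun y => decide (y = i + 1))) hr hfree
  have hob : PTime fun a => Auction.bestObj (n a)
      (w a (((List.range (n a)).find? (fun i => !((s a).2.any fun y => decide (y = i + 1)))).getD 0))
      (s a).1 := by
    refine bestObjP hn ?_ s1 q hq
    exact hw.comp (PTime.fst.pair ((hf.comp PTime.fst).pair PTime.snd))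
  refine (PTime.ite hany
    (PTime.pair (PTime.lset s1 hob (PTime.add (PTime.lgetD s1 hob (PTime.const 0)) (PTime.const 1)))
      (PTime.lset s2 hob (PTime.add hf (PTime.const 1)))) hs).congr fun a => ?_
  exact (bid_eq' (n a) (w a) (s a)).symm

end

/-! ### all bids -/

/-- the invariant for the sizes -/
def Inv (n r : ℕ) (s : List ℕ × List ℕ) : Prop :=
  s.1.length = n ∧ s.2.length = n ∧ (∀ x ∈ s.1, x ≤ r) ∧ ∀ x ∈ s.2, x ≤ n

theorem getD_le {m : ℕ} {l : List ℕ} (h : ∀ x ∈ l, x ≤ m) (i : ℕ) : l.getD i 0 ≤ m := by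
  rw [List.getD_eq_getElem?_getD]
  cases hc : l[i]? with
  | none => simp
  | some r => exact h r (List.mem_of_getElem? hc)

theorem Inv.bid {n r : ℕ} {w : ℕ → ℕ → ℕ} {s : List ℕ × List ℕ} (h : Inv n r s) :
    Inv n (r + 1) (Auction.bid n w s) := by
  obtain ⟨h1, h2, h3, h4⟩ := h
  unfold Auction.bid
  cases h : (List.range n).find? (fun i => !(s.2.contains (i + 1))) with
  | none => exact ⟨h1, h2, fun x hx => (h3 x hx).trans (Nat.le_succ r), h4⟩
  | some i =>
    refine ⟨by simpa using h1, by simpa using h2, fun x hx => ?_, fun x hx => ?_⟩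
    · rcases List.mem_or_eq_of_mem_set hx with hx | rfl
      · exact (h3 x hx).trans (Nat.le_succ r)
      · exact Nat.succ_le_succ (getD_le h3 _)
    · rcases List.mem_or_eq_of_mem_set hx with hx | rfl
      · exact h4 x hx
      · exact List.mem_range.1 (List.mem_of_find?_eq_some h)

theorem Inv.foldl {n : ℕ} {w : ℕ → ℕ → ℕ} (l : List ℕ) {r : ℕ} {s : List ℕ × List ℕ}
    (h : Inv n r s) : Inv n (r + l.length) (l.foldl (fun s _ => Auction.bid n w s) s) := by
  induction l generalizing r s with
  | nil => exact h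
  | cons x l ih =>
    rw [List.foldl_cons, List.length_cons]
    have := ih (h.bid (w := w))
    rwa [show r + (l.length + 1) = r + 1 + l.length by ring]

theorem Inv.size {n r : ℕ} {s : List ℕ × List ℕ} (h : Inv n r s) :
    (Code.code s).length ≤ 2 * (n * (2 * r + 2)) + 2 + n * (2 * n + 2) := by
  obtain ⟨h1, h2, h3, h4⟩ := h
  have e1 := codeL_length_le s.1 h3
  have e2 := codeL_length_le s.2 h4
  rw [h1] at e1
  rw [h2] at e2
  have e3 : (Code.code s).length = (pairL (Code.code s.1) (Code.code s.2)).length := rfl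
  rw [e3, length_pairL]
  omega

section

variable {α : Type} [Code α]

theorem bidsP {n f : α → ℕ} {w : α → ℕ → ℕ → ℕ} (hn : PTime n) (hf : PTime f)
    (hw : PTime fun x : α × ℕ × ℕ => w x.1 x.2.1 x.2.2) (qn qf : ℕ[X])
    (hqn : ∀ a, n a ≤ qn.eval (Code.code a).length)
    (hqf : ∀ a, f a ≤ qf.eval (Code.code a).length) :
    PTime fun a => Auction.bids (n a) (w a) (f a) := by
  have hz : PTime fun a => List.replicate (n a) 0 := by
    refine (PTime.lmap (g := fun _ _ => 0) (PTime.lrange hn qn hqn) (PTime.const 0)).congr fun a => ?_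
    simp
  have hst : PTime fun x : α × (List ℕ × List ℕ) × ℕ =>
      Auction.bid (n x.1) (w x.1) x.2.1 := by
    refine bidP (hn.comp PTime.fst) ?_ (PTime.fst.comp PTime.snd) qn fun x => ?_
    · exact hw.comp ((PTime.fst.comp PTime.fst).pair PTime.snd)
    · refine (hqn x.1).trans (eval_le_eval qn ?_)
      have e3 : (Code.code x).length = (pairL (Code.code x.1) (Code.code x.2)).length := rfl
      rw [e3, length_pairL]
      omega
  refine PTime.foldl (PTime.lrange hf qf hqf) (hz.pair hz) hst
    (2 * (qn * (2 * qf + 2)) + 2 + qn * (2 * qn + 2)) fun a i hi => ?_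
  have h0 : Inv (n a) 0 (List.replicate (n a) 0, List.replicate (n a) 0) := by
    refine ⟨by simp, by simp, fun x hx => ?_, fun x hx => ?_⟩
    · rw [List.eq_of_mem_replicate hx]
    · rw [List.eq_of_mem_replicate hx]; exact Nat.zero_le _
  have h1 := (h0.foldl (w := w a) ((List.range (f a)).take i)).size
  refine h1.trans ?_
  have e1 : n a ≤ qn.eval (csz a) := hqn a
  have e2 : f a ≤ qf.eval (csz a) := hqf a
  have e3 : ((List.range (f a)).take i).length ≤ f a := by
    rw [List.length_take, List.length_range]; exact min_le_right _ _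
  simp only [Polynomial.eval_add, Polynomial.eval_mul, Polynomial.eval_ofNat]
  gcongr
  omega

theorem idxOf_eq (x : ℕ) (l : List ℕ) :
    l.idxOf x = l.reverse.foldl (fun s b => if decide (b = x) then 0 else s + 1) 0 := by
  rw [List.foldl_reverse]
  induction l with
  | nil => rfl
  | cons b l ih =>
    rw [List.idxOf_cons, List.foldr_cons, ← ih]
    by_cases h : b = x
    · simp [h]
    · have h2 : (b == x) = false := beq_false_of_ne h
      simp [h, h2]

theorem foldl_idx_le (x : ℕ) (l : List ℕ) (s : ℕ) :
    l.foldl (fun s b => if decide (b = x) then 0 else s + 1) s ≤ s + l.length := by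
  induction l generalizing s with
  | nil => simp
  | cons b l ih =>
    rw [List.foldl_cons, List.length_cons]
    refine (ih _).trans ?_
    split_ifs <;> omega

theorem idxOfP {l : α → List ℕ} {b : α → ℕ} (hl : PTime l) (hb : PTime b) :
    PTime fun a => (l a).idxOf (b a) := by
  obtain ⟨r, hr⟩ := hl.csz_le
  have hst : PTime fun x : α × ℕ × ℕ => if decide (x.2.2 = b x.1) then 0 else x.2.1 + 1 :=
    PTime.ite (PTime.eq (PTime.snd.comp PTime.snd) (hb.comp PTime.fst)) (PTime.const 0)
      (PTime.add (PTime.fst.comp PTime.snd) (PTime.const 1))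
  refine (PTime.foldl' (step := fun a s y => if decide (y = b a) then 0 else s + 1)
    (PTime.lreverse hl) (PTime.const 0) hst r fun a i _ => ?_).congr fun a => ?_
  · refine (csz_nat_le _).trans ((foldl_idx_le _ _ _).trans (le_trans ?_ (hr a)))
    refine le_trans ?_ (length_le_csz (l a))
    rw [List.length_take, List.length_reverse]
    omega
  · exact (idxOf_eq _ _).symm

/-- **The auction in polynomial time.** -/
theorem assignP {n C : α → ℕ} {w : α → ℕ → ℕ → ℕ} (hn : PTime n) (hC : PTime C)
    (hw : PTime fun x : α × ℕ × ℕ => w x.1 x.2.1 x.2.2) (qn qC : ℕ[X])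
    (hqn : ∀ a, n a ≤ qn.eval (Code.code a).length)
    (hqC : ∀ a, C a ≤ qC.eval (Code.code a).length) :
    PTime fun a => Auction.assign (n a) (C a) (w a) := by
  have hn1 : PTime fun a => n a + 1 := PTime.add hn (PTime.const 1)
  have hf : PTime fun a => n a * ((n a + 1) * C a + 1) + 1 :=
    PTime.add (PTime.mul hn (PTime.add (PTime.mul hn1 hC) (PTime.const 1))) (PTime.const 1)
  have hw' : PTime fun x : α × ℕ × ℕ => (n x.1 + 1) * w x.1 x.2.1 x.2.2 :=
    PTime.mul (hn1.comp PTime.fst) hw
  have hb := bidsP (w := fun a i j => (n a + 1) * w a i j) hn hf hw' qn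
    (qn * ((qn + 1) * qC + 1) + 1) hqn fun a => by
      have e1 := hqn a
      have e2 := hqC a
      simp only [Polynomial.eval_add, Polynomial.eval_mul, Polynomial.eval_one]
      gcongr
  refine PTime.lmap (g := fun a i => (Auction.bids (n a) (fun i j => (n a + 1) *
    w a i j) (n a * ((n a + 1) * C a + 1) + 1)).2.idxOf (i + 1))
    (PTime.lrange hn qn hqn) ?_
  exact idxOfP (PTime.snd.comp (hb.comp PTime.fst)) (PTime.add PTime.snd (PTime.const 1))

end

end Vale.Agent.P333.PT
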