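import Vale.Agent.P337.ListCode
import Vale.Agent.P333.Ex.With

/-!
P333: polynomial time of a box for the maximum weight order, in every context.
-/

namespace Vale.Agent.P333.PT

open Vale.Agent.P337

/-- The box `A` is polynomial time in every context: if the number of nodes, the bound of the
weights and the weights are polynomial time functions of the context `a`, and the two numbers are
polynomially bounded, then the order `A (n a) (C a) (w a)` is a polynomial time function of `a`. -/
def BoxP (A : ℕ → ℕ → (ℕ → ℕ → ℕ) → List ℕ) : Prop :=
  ∀ (α : Type) [Code α] (n C : α → ℕ) (w : α → ℕ → ℕ → ℕ), PTime n → PTime C →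
    PTime (fun x : α × ℕ × ℕ => w x.1 x.2.1 x.2.2) → ∀ qn qC : Polynomial ℕ,
    (∀ a, n a ≤ qn.eval (Code.code a).length) → (∀ a, C a ≤ qC.eval (Code.code a).length) →
    PTime fun a => A (n a) (C a) (w a)

end Vale.Agent.P333.PT
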