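import Vale.Agent.P333.PT.ListP

/-!
# P333: more polynomial time functions on lists

Lists carry the generic code (nested pairs). Here: options, the first and the last element,
`take`, `drop`, tests for prefixes and factors, `idxOf`, `erase`, `zip`, `replicate`,
insertion sort.
-/

namespace Vale.Agent.P337

section

variable {α β γ σ : Type} [Code α] [Code β] [Code γ] [Code σ]

theorem csz_reverse (l : List β) : csz l.reverse = csz l := csz_perm (List.reverse_perm l)

/-! ### Folds with a known state after every prefix -/

omit [Code β] in
/-- a fold whose state after the prefix `p` is `F p` -/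
theorem foldl_of_prefix {σ : Type} {f : σ → β → σ} {s₀ : σ} {F : List β → σ}
    (h0 : s₀ = F []) (h1 : ∀ p b, f (F p) b = F (p ++ [b])) (l : List β) :
    l.foldl f s₀ = F l := by
  induction l using List.reverseRecOn with
  | nil => rw [List.foldl_nil, h0]
  | append_singleton l b ih => rw [List.foldl_append, ih, List.foldl_cons, List.foldl_nil, h1]

/-- Folds for which the state after every prefix is known. -/
theorem PTime.foldlOf {l : α → List β} {init : α → σ} {step : α → σ → β → σ}
    (hl : PTime l) (hi : PTime init) (hs : PTime fun x : α × σ × β => step x.1 x.2.1 x.2.2)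
    (F : α → List β → σ)
    (h0 : ∀ a, init a = F a []) (h1 : ∀ a p b, step a (F a p) b = F a (p ++ [b]))
    (q : Polynomial ℕ) (hq : ∀ a p, p <+: l a → csz (F a p) ≤ q.eval (csz a)) :
    PTime (fun a => F a (l a)) := by
  have key : ∀ a (p : List β), p.foldl (step a) (init a) = F a p :=
    fun a p => foldl_of_prefix (h0 a) (h1 a) p
  refine (PTime.foldl' hl hi hs q fun a i _ => ?_).congr fun a => key a (l a)
  rw [key]
  exact hq a _ (List.take_prefix _ _)

/-! ### Take and drop -/

theorem PTime.ltake {l : α → List β} {n : α → ℕ} (hl : PTime l) (hn : PTime n) :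
    PTime fun a => (l a).take (n a) := by
  obtain ⟨r, hr⟩ := hl.csz_le
  obtain ⟨q, hq⟩ := hn.csz_le
  have h := PTime.foldlOf (σ := ℕ × List β) (init := fun a => (n a, []))
    (step := fun _ s b => if decide (s.1 = 0) then s else (s.1 - 1, b :: s.2))
    hl (hn.pair PTime.nil') (PTime.ite (PTime.eq (PTime.fst.comp (PTime.fst.comp PTime.snd))
      (PTime.const 0)) (PTime.fst.comp PTime.snd)
      ((PTime.sub (PTime.fst.comp (PTime.fst.comp PTime.snd)) (PTime.const 1)).pair
        (PTime.cons' (PTime.snd.comp PTime.snd) (PTime.snd.comp (PTime.fst.comp PTime.snd)))))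
    (fun a p => (n a - p.length, (p.take (n a)).reverse)) ?_ ?_ (2 * q + 2 + r) ?_
  · exact (PTime.lreverse (PTime.snd.comp h)).congr fun a => by simp
  · intro a; simp
  · intro a p b
    by_cases hk : n a - p.length = 0
    · have h1 : n a ≤ p.length := by omega
      have h2 : n a - (p ++ [b]).length = 0 := by rw [List.length_append]; omega
      simp only [hk, h2, decide_true, if_true, List.take_append_of_le_length h1]
    · have h1 : p.length < n a := by omega
      have h2 : n a - (p ++ [b]).length = n a - p.length - 1 := by
        rw [List.length_append, List.length_singleton]; omega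
      have h3 : (p ++ [b]).take (n a) = p ++ [b] := List.take_of_length_le (by simp; omega)
      have h4 : p.take (n a) = p := List.take_of_length_le (by omega)
      simp only [hk, decide_false, Bool.false_eq_true, if_false, h2, h3, h4, List.reverse_append,
        List.reverse_cons, List.reverse_nil, List.nil_append, List.singleton_append]
  · intro a p hp
    rw [csz_pair, csz_reverse]
    have h1 := hr a
    have h2 := hq a
    have h3 : csz (n a - p.length) ≤ csz (n a) := csz_nat_mono (Nat.sub_le _ _)
    have h4 : csz (p.take (n a)) ≤ csz (l a) :=
      csz_sublist ((List.take_sublist _ _).trans hp.sublist)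
    simp only [Polynomial.eval_add, Polynomial.eval_mul, Polynomial.eval_ofNat]
    omega

theorem PTime.ldrop {l : α → List β} {n : α → ℕ} (hl : PTime l) (hn : PTime n) :
    PTime fun a => (l a).drop (n a) := by
  obtain ⟨r, hr⟩ := hl.csz_le
  obtain ⟨q, hq⟩ := hn.csz_le
  have h := PTime.foldlOf (σ := ℕ × List β) (init := fun a => (n a, l a))
    (step := fun _ s _ => if decide (s.1 = 0) then s else (s.1 - 1, s.2.tail))
    hl (hn.pair hl) (PTime.ite (PTime.eq (PTime.fst.comp (PTime.fst.comp PTime.snd))
      (PTime.const 0)) (PTime.fst.comp PTime.snd)
      ((PTime.sub (PTime.fst.comp (PTime.fst.comp PTime.snd)) (PTime.const 1)).pair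
        (PTime.tail' (PTime.snd.comp (PTime.fst.comp PTime.snd)))))
    (fun a p => (n a - p.length, (l a).drop (min p.length (n a)))) ?_ ?_ (2 * q + 2 + r) ?_
  · refine (PTime.snd.comp h).congr fun a => ?_
    rcases Nat.le_total (l a).length (n a) with h1 | h1
    · simp [h1]
    · simp [h1]
  · intro a; simp
  · intro a p b
    by_cases hk : n a - p.length = 0
    · have h1 : n a ≤ p.length := by omega
      have h2 : n a - (p ++ [b]).length = 0 := by rw [List.length_append]; omega
      have h3 : min p.length (n a) = n a := by omega
      have h4 : min (p ++ [b]).length (n a) = n a := by rw [List.length_append]; omega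
      simp only [hk, h2, decide_true, if_true, h3, h4]
    · have h2 : n a - (p ++ [b]).length = n a - p.length - 1 := by
        rw [List.length_append, List.length_singleton]; omega
      have h3 : min p.length (n a) = p.length := by omega
      have h4 : min (p ++ [b]).length (n a) = p.length + 1 := by
        rw [List.length_append, List.length_singleton]; omega
      simp only [hk, decide_false, Bool.false_eq_true, if_false, h2, h3, h4, List.tail_drop]
  · intro a p hp
    rw [csz_pair]
    have h1 := hr a
    have h2 := hq a
    have h3 : csz (n a - p.length) ≤ csz (n a) := csz_nat_mono (Nat.sub_le _ _)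
    have h4 := csz_drop (l a) (min p.length (n a))
    simp only [Polynomial.eval_add, Polynomial.eval_mul, Polynomial.eval_ofNat]
    omega

/-! ### Prefixes and factors -/

theorem PTime.lisPrefix [DecidableEq β] {f g : α → List β} (hf : PTime f) (hg : PTime g) :
    PTime fun a => decide (f a <+: g a) :=
  (PTime.eq hf (PTime.ltake hg (PTime.llength hf))).congr fun a =>
    decide_eq_decide.2 List.prefix_iff_eq_take.symm

omit [Code β] in
theorem infix_iff_drop (x l : List β) : x <:+: l ↔ ∃ k ∈ List.range (l.length + 1),
    x <+: l.drop k := by
  constructor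
  · rintro ⟨s, t, rfl⟩
    refine ⟨s.length, by simp only [List.mem_range, List.length_append]; omega, t, ?_⟩
    rw [List.append_assoc, List.drop_left]
  · rintro ⟨k, -, h⟩
    exact h.isInfix.trans (List.drop_suffix k l).isInfix

theorem PTime.lisInfix [DecidableEq β] {f g : α → List β} (hf : PTime f) (hg : PTime g) :
    PTime fun a => decide (f a <:+: g a) := by
  obtain ⟨r, hr⟩ := hg.csz_le
  have h := PTime.lany (p := fun a k => decide (f a <+: (g a).drop k))
    (PTime.lrange (PTime.add (PTime.llength hg) (PTime.const 1)) (r + 1) fun a => by
      have h1 : csz (g a) ≤ r.eval (Code.code a).length := hr a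
      have h2 := length_le_csz (g a)
      simp only [Polynomial.eval_add, Polynomial.eval_one]
      omega)
    (PTime.lisPrefix (hf.comp PTime.fst) (PTime.ldrop (hg.comp PTime.fst) PTime.snd))
  refine h.congr fun a => ?_
  rw [Bool.eq_iff_iff, List.any_eq_true, decide_eq_true_iff, infix_iff_drop]
  simp only [decide_eq_true_iff]

/-! ### Position, erase, membership -/

theorem PTime.lidxOf [BEq β] [LawfulBEq β] {x : α → β} {l : α → List β} (hx : PTime x)
    (hl : PTime l) : PTime fun a => (l a).idxOf (x a) := by
  classical
  obtain ⟨r, hr⟩ := hl.csz_le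
  have h := PTime.foldlOf (σ := Bool × ℕ) (init := fun _ => (false, 0))
    (step := fun a s b => if s.1 then s else if decide (b = x a) then (true, s.2)
      else (false, s.2 + 1))
    hl (PTime.const _) (PTime.ite (PTime.fst.comp (PTime.fst.comp PTime.snd))
      (PTime.fst.comp PTime.snd)
      (PTime.ite (PTime.eq (PTime.snd.comp PTime.snd) (hx.comp PTime.fst))
        ((PTime.const true).pair (PTime.snd.comp (PTime.fst.comp PTime.snd)))
        ((PTime.const false).pair
          (PTime.add (PTime.snd.comp (PTime.fst.comp PTime.snd)) (PTime.const 1)))))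
    (fun a p => (decide (x a ∈ p), p.idxOf (x a))) ?_ ?_ (r + 4) ?_
  · exact (PTime.snd.comp h).congr fun a => rfl
  · intro a; simp
  · intro a p b
    by_cases hm : x a ∈ p
    · simp [hm, List.idxOf_append]
    · by_cases hb : b = x a
      · simp [hm, hb, List.idxOf_append]
      · have hb' : ¬ x a = b := fun h => hb h.symm
        simp [hm, hb, hb', List.idxOf_of_notMem]
  · intro a p hp
    rw [csz_pair, csz_bool]
    have h1 := hr a
    have h2 := csz_nat_le (p.idxOf (x a))
    have h3 : p.idxOf (x a) ≤ p.length := List.idxOf_le_length
    have h4 := length_le_csz p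
    have h5 := csz_sublist hp.sublist
    simp only [Polynomial.eval_add, Polynomial.eval_ofNat]
    omega

theorem PTime.lerase [BEq β] [LawfulBEq β] {x : α → β} {l : α → List β} (hx : PTime x)
    (hl : PTime l) : PTime fun a => (l a).erase (x a) := by
  classical
  obtain ⟨r, hr⟩ := hl.csz_le
  have h := PTime.foldlOf (σ := Bool × List β) (init := fun _ => (false, []))
    (step := fun a s b => if s.1 then (true, b :: s.2) else if decide (b = x a) then (true, s.2)
      else (false, b :: s.2))
    hl (PTime.const _) (PTime.ite (PTime.fst.comp (PTime.fst.comp PTime.snd))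
      ((PTime.const true).pair (PTime.cons' (PTime.snd.comp PTime.snd)
        (PTime.snd.comp (PTime.fst.comp PTime.snd))))
      (PTime.ite (PTime.eq (PTime.snd.comp PTime.snd) (hx.comp PTime.fst))
        ((PTime.const true).pair (PTime.snd.comp (PTime.fst.comp PTime.snd)))
        ((PTime.const false).pair
          (PTime.cons' (PTime.snd.comp PTime.snd) (PTime.snd.comp (PTime.fst.comp PTime.snd))))))
    (fun a p => (decide (x a ∈ p), (p.erase (x a)).reverse)) ?_ ?_ (r + 4) ?_
  · exact (PTime.lreverse (PTime.snd.comp h)).congr fun a => by simp
  · intro a; simp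
  · intro a p b
    by_cases hm : x a ∈ p
    · simp [hm, List.erase_append]
    · by_cases hb : b = x a
      · simp [hm, hb, List.erase_append, List.erase_of_not_mem]
      · have hb' : ¬ x a = b := fun h => hb h.symm
        simp [hm, hb, hb', List.erase_of_not_mem]
  · intro a p hp
    rw [csz_pair, csz_bool, csz_reverse]
    have h1 := hr a
    have h4 : csz (p.erase (x a)) ≤ csz p := csz_sublist (List.erase_sublist)
    have h5 := csz_sublist hp.sublist
    simp only [Polynomial.eval_add, Polynomial.eval_ofNat]
    omega

theorem PTime.lcontains [BEq β] [LawfulBEq β] {x : α → β} {l : α → List β} (hx : PTime x)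
    (hl : PTime l) : PTime fun a => (l a).contains (x a) := by
  refine (PTime.lt (PTime.lidxOf hx hl) (PTime.llength hl)).congr fun a => ?_
  rw [Bool.eq_iff_iff, List.contains_iff_mem, decide_eq_true_iff, List.idxOf_lt_length_iff]

/-! ### Zip -/

omit [Code α] in
theorem csz_zip (f : List β) (g : List γ) : csz (f.zip g) ≤ 2 * csz f + csz g := by
  induction f generalizing g with
  | nil => simp [csz_nil]
  | cons b f ih =>
    cases g with
    | nil => simp [csz_nil]
    | cons c g =>
      have := ih g
      rw [List.zip_cons_cons, csz_cons, csz_cons, csz_cons, csz_pair]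
      omega

omit [Code β] [Code γ] in
theorem zip_snoc (d : γ) (b : β) (p : List β) (g : List γ) : (p ++ [b]).zip g =
    if (g.drop p.length).isEmpty then p.zip g
      else p.zip g ++ [(b, (g.drop p.length).headD d)] := by
  induction p generalizing g with
  | nil => cases g <;> simp
  | cons c p ih =>
    cases g with
    | nil => simp
    | cons e g =>
      rw [List.cons_append, List.zip_cons_cons, List.zip_cons_cons, ih g, List.length_cons,
        List.drop_succ_cons]
      split_ifs <;> simp

theorem PTime.lzip {f : α → List β} {g : α → List γ} (hf : PTime f) (hg : PTime g) :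
    PTime fun a => (f a).zip (g a) := by
  rcases isEmpty_or_nonempty γ with he | ⟨⟨d⟩⟩
  · refine (PTime.nil' (α := α) (β := β × γ)).congr fun a => ?_
    have : g a = [] := by
      cases h : g a with
      | nil => rfl
      | cons b _ => exact (he.false b).elim
    rw [this, List.zip_nil_right]
  obtain ⟨q, hq⟩ := hf.csz_le
  obtain ⟨r, hr⟩ := hg.csz_le
  have h := PTime.foldlOf (σ := List γ × List (β × γ)) (init := fun a => (g a, []))
    (step := fun _ s b => if s.1.isEmpty then s else (s.1.tail, (b, s.1.headD d) :: s.2))
    hf (hg.pair PTime.nil') (PTime.ite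
      (PTime.isEmpty' (PTime.fst.comp (PTime.fst.comp PTime.snd)))
      (PTime.fst.comp PTime.snd)
      ((PTime.tail' (PTime.fst.comp (PTime.fst.comp PTime.snd))).pair
        (PTime.cons' ((PTime.snd.comp PTime.snd).pair
          (PTime.headD' (PTime.const d) (PTime.fst.comp (PTime.fst.comp PTime.snd))))
          (PTime.snd.comp (PTime.fst.comp PTime.snd)))))
    (fun a p => ((g a).drop p.length, (p.zip (g a)).reverse)) ?_ ?_ (2 * r + 2 + (2 * q + r)) ?_
  · exact (PTime.lreverse (PTime.snd.comp h)).congr fun a => by simp
  · intro a; simp
  · intro a p b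
    rw [zip_snoc d b p (g a), List.length_append, List.length_singleton]
    by_cases hk : ((g a).drop p.length).isEmpty
    · have h1 : (g a).length ≤ p.length := by simpa using hk
      have h2 : (g a).drop (p.length + 1) = (g a).drop p.length := by
        rw [List.drop_of_length_le h1, List.drop_of_length_le (by omega)]
      simp only [hk, if_true, h2]
    · simp only [hk, Bool.false_eq_true, if_false, List.tail_drop, List.reverse_append,
        List.reverse_cons, List.reverse_nil, List.nil_append, List.singleton_append]
  · intro a p hp
    rw [csz_pair, csz_reverse]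
    have h1 := hq a
    have h2 := hr a
    have h3 := csz_drop (g a) p.length
    have h4 := csz_zip p (g a)
    have h5 := csz_sublist hp.sublist
    simp only [Polynomial.eval_add, Polynomial.eval_mul, Polynomial.eval_ofNat]
    omega

/-! ### Replicate -/

theorem csz_replicate (n : ℕ) (b : β) : csz (List.replicate n b) = n * (2 * csz b + 2) := by
  rw [csz_list, List.map_replicate, List.sum_replicate, smul_eq_mul]

theorem PTime.lreplicate {n : α → ℕ} {x : α → β} (hn : PTime n) (q : Polynomial ℕ)
    (hq : ∀ a, n a ≤ q.eval (Code.code a).length) (hx : PTime x) :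
    PTime fun a => List.replicate (n a) (x a) := by
  refine (PTime.lmap (g := fun a _ => x a) (PTime.lrange hn q hq) (hx.comp PTime.fst)).congr
    fun a => ?_
  simp

/-! ### Insertion sort -/

theorem orderedInsert_append_of_any {β : Type} (r : β → β → Prop) [DecidableRel r] (x : β)
    (p l : List β) (h : p.any (fun b => decide (r x b)) = true) :
    (p ++ l).orderedInsert r x = p.orderedInsert r x ++ l := by
  induction p with
  | nil => simp at h
  | cons c p ih =>
    rw [List.cons_append, List.orderedInsert_cons, List.orderedInsert_cons]
    by_cases hc : r x c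
    · simp [hc]
    · rw [if_neg hc, if_neg hc, ih (by simpa [hc] using h), List.cons_append]

theorem orderedInsert_append_of_not_any {β : Type} (r : β → β → Prop) [DecidableRel r] (x : β)
    (p l : List β) (h : ¬ p.any (fun b => decide (r x b)) = true) :
    (p ++ l).orderedInsert r x = p ++ l.orderedInsert r x := by
  induction p with
  | nil => rfl
  | cons c p ih =>
    rw [List.cons_append, List.orderedInsert_cons, List.cons_append]
    have hc : ¬ r x c := fun hc => h (by simp [hc])
    rw [if_neg hc, ih (fun h' => h (by rw [List.any_cons, h', Bool.or_true]))]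

/-- ordered insertion, with a fold over the list -/
theorem PTime.lorderedInsert {r : α → β → β → Prop} [∀ a, DecidableRel (r a)] {x : α → β}
    {l : α → List β} (hr : PTime fun x : α × β × β => decide (r x.1 x.2.1 x.2.2)) (hx : PTime x)
    (hl : PTime l) : PTime fun a => (l a).orderedInsert (r a) (x a) := by
  obtain ⟨q, hq⟩ := hl.csz_le
  obtain ⟨t, ht⟩ := hx.csz_le
  have h := PTime.foldlOf (σ := Bool × List β) (init := fun _ => (false, []))
    (step := fun a s b => if s.1 then (true, b :: s.2) else
      if decide (r a (x a) b) then (true, b :: x a :: s.2) else (false, b :: s.2))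
    hl (PTime.const _) (PTime.ite (PTime.fst.comp (PTime.fst.comp PTime.snd))
      ((PTime.const true).pair (PTime.cons' (PTime.snd.comp PTime.snd)
        (PTime.snd.comp (PTime.fst.comp PTime.snd))))
      (PTime.ite (hr.comp (PTime.fst.pair ((hx.comp PTime.fst).pair (PTime.snd.comp PTime.snd))))
        ((PTime.const true).pair (PTime.cons' (PTime.snd.comp PTime.snd)
          (PTime.cons' (hx.comp PTime.fst) (PTime.snd.comp (PTime.fst.comp PTime.snd)))))
        ((PTime.const false).pair (PTime.cons' (PTime.snd.comp PTime.snd)
          (PTime.snd.comp (PTime.fst.comp PTime.snd))))))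
    (fun a p => (p.any (fun b => decide (r a (x a) b)),
      if p.any (fun b => decide (r a (x a) b)) then (p.orderedInsert (r a) (x a)).reverse
        else p.reverse)) ?_ ?_ (4 + (2 * t + 2) + q) ?_
  · refine (PTime.ite (PTime.fst.comp h) (PTime.lreverse (PTime.snd.comp h))
      (PTime.lreverse (PTime.cons' hx (PTime.snd.comp h)))).congr fun a => ?_
    by_cases hk : (l a).any (fun b => decide (r a (x a) b)) = true
    · simp only [hk, if_true, List.reverse_reverse]
    · have h1 := orderedInsert_append_of_not_any (r a) (x a) (l a) [] hk
      rw [List.append_nil] at h1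
      simp only [hk, if_false, Bool.false_eq_true, List.reverse_cons, List.reverse_reverse, h1,
        List.orderedInsert_nil]
  · intro a; simp
  · intro a p b
    by_cases hk : p.any (fun b => decide (r a (x a) b)) = true
    · have h1 := orderedInsert_append_of_any (r a) (x a) p [b] hk
      have h2 : (p ++ [b]).any (fun b => decide (r a (x a) b)) = true := by
        rw [List.any_append, hk, Bool.true_or]
      simp only [hk, h2, h1, if_true, List.reverse_append, List.reverse_cons, List.reverse_nil,
        List.nil_append, List.singleton_append]
    · have h1 := orderedInsert_append_of_not_any (r a) (x a) p [b] hk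
      have hk' : p.any (fun b => decide (r a (x a) b)) = false := by simpa using hk
      by_cases hb : r a (x a) b
      · have h2 : (p ++ [b]).any (fun b => decide (r a (x a) b)) = true := by
          rw [List.any_append]; simp [hb]
        simp [hk', h2, h1, hb]
      · have h2 : (p ++ [b]).any (fun b => decide (r a (x a) b)) = false := by
          rw [List.any_append, hk']; simp [hb]
        simp [hk', h2, hb]
  · intro a p hp
    rw [csz_pair, csz_bool]
    have h1 := hq a
    have h2 := ht a
    have h5 := csz_sublist hp.sublist
    have h6 : csz (p.orderedInsert (r a) (x a)) = 2 * csz (x a) + 2 + csz p := by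
      rw [csz_perm (List.perm_orderedInsert (r a) (x a) p), csz_cons]
    simp only [Polynomial.eval_add, Polynomial.eval_mul, Polynomial.eval_ofNat]
    split_ifs <;> rw [csz_reverse] <;> omega

theorem PTime.linsertionSort {r : α → β → β → Prop} [∀ a, DecidableRel (r a)]
    {l : α → List β} (hr : PTime fun x : α × β × β => decide (r x.1 x.2.1 x.2.2))
    (hl : PTime l) : PTime fun a => (l a).insertionSort (r a) := by
  obtain ⟨q, hq⟩ := hl.csz_le
  have h := PTime.foldlOf (σ := List β) (init := fun _ => [])
    (step := fun a s b => s.orderedInsert (r a) b)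
    (PTime.lreverse hl) PTime.nil'
    (PTime.lorderedInsert (r := fun x : α × List β × β => r x.1)
      (hr.comp ((PTime.fst.comp PTime.fst).pair PTime.snd))
      (PTime.snd.comp PTime.snd) (PTime.fst.comp PTime.snd))
    (fun a p => p.reverse.insertionSort (r a)) ?_ ?_ q ?_
  · exact h.congr fun a => by rw [List.reverse_reverse]
  · intro a; simp
  · intro a p b
    rw [List.reverse_append, List.reverse_singleton, List.singleton_append,
      List.insertionSort_cons]
  · intro a p hp
    have h1 := hq a
    have h2 := csz_sublist hp.sublist
    rw [csz_reverse] at h2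
    rw [csz_perm (List.perm_insertionSort _ _), csz_reverse]
    omega

/-! ### Options -/

instance instCodeOption : Code (Option β) :=
  ⟨fun o => o.elim [] fun b => true :: Code.code b, by
    intro o o' h
    cases o <;> cases o' <;> simp_all
    exact Code.inj h⟩

theorem code_none : Code.code (none : Option β) = [] := rfl

theorem code_some (b : β) : Code.code (some b) = true :: Code.code b := rfl

theorem csz_none : csz (none : Option β) = 0 := rfl

theorem csz_some (b : β) : csz (some b) = csz b + 1 := rfl

theorem PTime.osome {f : α → β} (hf : PTime f) : PTime fun a => some (f a) := by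
  obtain ⟨F, h1, h2⟩ := hf
  exact ⟨_, h1.cons true, fun a => by beta_reduce; rw [h2]; rfl⟩

theorem PTime.onone : PTime fun _ : α => (none : Option β) := PTime.const _

theorem PTime.oisNone {o : α → Option β} (ho : PTime o) : PTime fun a => (o a).isNone := by
  obtain ⟨O, h1, h2⟩ := ho
  refine ⟨_, PTB.isEmpty h1, fun a => ?_⟩
  beta_reduce
  rw [h2]
  cases o a <;> rfl

theorem PTime.oisSome {o : α → Option β} (ho : PTime o) : PTime fun a => (o a).isSome :=
  (PTime.not (PTime.oisNone ho)).congr fun a => by cases o a <;> rfl

/-- case distinction for an option -/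
theorem PTime.oelim {o : α → Option β} {n : α → γ} {s : α → β → γ} (ho : PTime o) (hn : PTime n)
    (hs : PTime fun x : α × β => s x.1 x.2) : PTime fun a => (o a).elim (n a) (s a) := by
  obtain ⟨E, e1, e2⟩ := PTime.oisNone ho
  obtain ⟨O, h1, h2⟩ := ho
  obtain ⟨N, h3, h4⟩ := hn
  obtain ⟨S, h5, h6⟩ := hs
  refine ⟨_, PT.ite (PTB.head e1) h3 (h5.comp (PT.pair PT.id h1.tail)), fun a => ?_⟩
  beta_reduce
  have e3 : (E (Code.code a)).headD false = (o a).isNone := by rw [e2]; rfl
  rw [e3, h2, h4]
  cases h : o a with
  | none => rfl
  | some b =>
    show S (pairL (Code.code a) (Code.code b)) = _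
    rw [← code_pair, h6]
    rfl

theorem PTime.ogetD {o : α → Option β} {d : α → β} (ho : PTime o) (hd : PTime d) :
    PTime fun a => (o a).getD (d a) :=
  (PTime.oelim (s := fun _ b => b) ho hd PTime.snd).congr fun a => by cases o a <;> rfl

theorem PTime.lfind? {l : α → List β} {p : α → β → Bool} (hl : PTime l)
    (hp : PTime fun x : α × β => p x.1 x.2) : PTime fun a => (l a).find? (p a) := by
  obtain ⟨q, hq⟩ := hl.csz_le
  refine PTime.foldlOf (σ := Option β) (init := fun _ => none)
    (step := fun a s b => if s.isSome then s else if p a b then some b else none)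
    hl PTime.onone (PTime.ite (PTime.oisSome (PTime.fst.comp PTime.snd))
      (PTime.fst.comp PTime.snd)
      (PTime.ite (hp.comp (PTime.fst.pair (PTime.snd.comp PTime.snd)))
        (PTime.osome (PTime.snd.comp PTime.snd)) PTime.onone))
    (fun a l => l.find? (p a)) ?_ ?_ (q + 1) ?_
  · intro a; simp
  · intro a l b
    rw [List.find?_append]
    cases h : l.find? (p a) with
    | some c => simp
    | none =>
      simp only [Option.isSome_none, Bool.false_eq_true, if_false, Option.none_or,
        List.find?_cons, List.find?_nil]
      cases p a b <;> rfl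
  · intro a l' hl'
    have h1 := hq a
    simp only [Polynomial.eval_add, Polynomial.eval_one]
    cases h : l'.find? (p a) with
    | none => rw [csz_none]; omega
    | some c =>
      have h2 := csz_mem (List.mem_of_find?_eq_some h)
      have h3 := csz_sublist hl'.sublist
      rw [csz_some]
      omega

theorem PTime.lhead? {l : α → List β} (hl : PTime l) : PTime fun a => (l a).head? :=
  (PTime.lfind? (p := fun _ _ => true) hl (PTime.const true)).congr fun a => by
    cases l a <;> rfl

theorem PTime.lgetLast? {l : α → List β} (hl : PTime l) : PTime fun a => (l a).getLast? :=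
  (PTime.lhead? (PTime.lreverse hl)).congr fun a => by rw [List.head?_reverse]

theorem PTime.ldropLast {l : α → List β} (hl : PTime l) : PTime fun a => (l a).dropLast :=
  (PTime.ltake hl (PTime.sub (PTime.llength hl) (PTime.const 1))).congr fun a => by
    rw [List.dropLast_eq_take]

theorem PTime.lrotateOne {l : α → List β} (hl : PTime l) : PTime fun a => (l a).rotate 1 :=
  (PTime.lappend (PTime.ldrop hl (PTime.const 1)) (PTime.ltake hl (PTime.const 1))).congr
    fun a => by cases l a <;> simp

end

end Vale.Agent.P337
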