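import Vale.Agent.P333.Ex.Alg
import Vale.Agent.P333.PT.ListQ

/-!
P333: the programs of `Ex/Words.lean` run in polynomial time.
-/

namespace Vale.Agent.P333.PT

open Vale.Agent.P337 Vale.Agent.P333 Vale.Agent.P333.Ex

variable {α : Type} [Code α]

/-- longest overlap -/
theorem ovlP {s t : α → List ℕ} (hs : PTime s) (ht : PTime t) :
    PTime fun a => ovl (s a) (t a) := by
  obtain ⟨r, hr⟩ := hs.csz_le
  have hsx : PTime fun x : α × ℕ => s x.1 := hs.comp PTime.fst
  have htx : PTime fun x : α × ℕ => t x.1 := ht.comp PTime.fst
  exact PTime.lfindD (l := fun a => (List.range (s a).length).reverse)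
    (p := fun a k => decide (k + 1 ≤ (t a).length) &&
      decide ((s a).drop ((s a).length - k) <+: t a)) (d := fun _ => 0)
    (PTime.lreverse (PTime.lrange (PTime.llength hs) r
      fun a => (length_le_csz _).trans (hr a)))
    (PTime.and (PTime.le (PTime.add PTime.snd (PTime.const 1)) (PTime.llength htx))
      (PTime.lisPrefix (PTime.ldropN hsx (PTime.sub (PTime.llength hsx) PTime.snd)) htx))
    (PTime.const 0)

/-- table of the overlaps -/
theorem tableP {W : α → List (List ℕ)} (hW : PTime W) : PTime fun a => table (W a) := by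
  refine PTime.lmap (g := fun a s => (W a).map fun t => ovl s t) hW ?_
  exact PTime.lmap (g := fun (x : α × List ℕ) t => ovl x.2 t) (hW.comp PTime.fst)
    (ovlP (PTime.snd.comp PTime.fst) PTime.snd)

/-- entry of a table -/
theorem lookP {M : α → List (List ℕ)} {i j : α → ℕ} (hM : PTime M) (hi : PTime i)
    (hj : PTime j) : PTime fun a => look (M a) (i a) (j a) :=
  PTime.lgetD (PTime.lgetD hM hi (PTime.const [])) hj (PTime.const 0)

theorem csz_reduce_le (l : List (List ℕ)) : csz (reduce l) ≤ csz l := by
  induction l with
  | nil => exact le_rfl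
  | cons x l ih =>
    rw [reduce, csz_cons]
    split_ifs
    · omega
    · rw [csz_cons]
      have := csz_sublist ((reduce l).filter_sublist (p := fun y => !decide (y <:+: x)))
      omega

/-- factor-free subfamily -/
theorem reduceP {W : α → List (List ℕ)} (hW : PTime W) : PTime fun a => reduce (W a) := by
  obtain ⟨r, hr⟩ := (PTime.lreverse hW).csz_le
  have hx : PTime fun x : α × List (List ℕ) × List ℕ => x.2.2 := PTime.snd.comp PTime.snd
  have hacc : PTime fun x : α × List (List ℕ) × List ℕ => x.2.1 := PTime.fst.comp PTime.snd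
  have h := PTime.foldlOf (l := fun a => (W a).reverse) (init := fun _ => ([] : List (List ℕ)))
    (step := fun (_ : α) (acc : List (List ℕ)) (x : List ℕ) =>
      if acc.any (fun y => decide (x <:+: y)) then acc
      else x :: acc.filter fun y => !decide (y <:+: x))
    (PTime.lreverse hW) (PTime.const [])
    (PTime.ite (PTime.lany (p := fun (x : α × List (List ℕ) × List ℕ) y => decide (x.2.2 <:+: y))
        hacc (PTime.lisInfix (hx.comp PTime.fst) PTime.snd)) hacc
      (PTime.cons' hx (PTime.lfilter
        (p := fun (x : α × List (List ℕ) × List ℕ) y => !decide (y <:+: x.2.2)) hacc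
        (PTime.not (PTime.lisInfix PTime.snd (hx.comp PTime.fst))))))
    (fun _ p => reduce p.reverse) (fun a => rfl)
    (fun a p b => by simp only [List.reverse_append, List.reverse_singleton,
      List.singleton_append, reduce]) r
    (fun a p hp => by
      have h1 := csz_reduce_le p.reverse
      have h2 := csz_sublist hp.sublist
      have h3 := hr a
      rw [csz_reverse] at h1
      exact (h1.trans h2).trans h3)
  exact h.congr fun a => by simp only [List.reverse_reverse]

/-- the words that matter -/
theorem cleanP {W : α → List (List ℕ)} (hW : PTime W) : PTime fun a => clean (W a) :=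
  reduceP (PTime.lfilter (p := fun (_ : α) (x : List ℕ) => !x.isEmpty) hW
    (PTime.not (PTime.isEmpty' PTime.snd)))

theorem foldl_maxLen_le (Y : List (List ℕ)) : ∀ (m B : ℕ), m ≤ B → (∀ y ∈ Y, csz y ≤ B) →
    Y.foldl (fun m x => max m x.length) m ≤ B := by
  induction Y with
  | nil => intro m B hm _; exact hm
  | cons y Y ih =>
    intro m B hm hY
    refine ih _ B (max_le hm ?_) (fun z hz => hY z (List.mem_cons_of_mem _ hz))
    exact (length_le_csz y).trans (hY y (by simp))

/-- the length of a longest word -/
theorem maxLenP {W : α → List (List ℕ)} (hW : PTime W) : PTime fun a => maxLen (W a) := by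
  obtain ⟨r, hr⟩ := hW.csz_le
  have hm : PTime fun x : α × ℕ × List ℕ => x.2.1 := PTime.fst.comp PTime.snd
  have hl : PTime fun x : α × ℕ × List ℕ => x.2.2.length :=
    PTime.llength (PTime.snd.comp PTime.snd)
  refine PTime.foldl' (step := fun (_ : α) (m : ℕ) (x : List ℕ) => max m x.length) hW
    (PTime.const 0) ((PTime.ite (PTime.le hm hl) hl hm).congr fun x => ?_) r fun a i _ => ?_
  · by_cases h : x.2.1 ≤ x.2.2.length
    · simp [h]
    · simp [h, max_eq_left (not_le.1 h).le]
  · refine (csz_nat_le _).trans ((foldl_maxLen_le _ _ (csz (W a)) (Nat.zero_le _) ?_).trans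
      (hr a))
    intro y hy
    exact csz_mem (List.mem_of_mem_take hy)

end Vale.Agent.P333.PT
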