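import Vale.Agent.P333.PT.OpenP
import Vale.Agent.P333.PT.BoxDef
import Vale.Agent.P333.PT.AuctionP
import Vale.Agent.P333.PT.WordsQ

/-!
P333: the whole algorithm runs in polynomial time, if the box does.
-/

namespace Vale.Agent.P333.PT

open Vale.Agent.P337 Vale.Agent.P333 Vale.Agent.P333.Ex Vale.Agent.P333.Open

variable {α : Type} [Code α]

/-! ### Bounds -/

theorem maxLen_le_csz (X : List (List ℕ)) : maxLen X ≤ csz X :=
  foldl_maxLen_le X 0 _ (Nat.zero_le _) fun _ hy => csz_mem hy

theorem csz_getD_le (W : List (List ℕ)) (i : ℕ) : csz (W.getD i []) ≤ csz W := by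
  by_cases h : i < W.length
  · rw [List.getD_eq_getElem _ _ h]
    exact csz_mem (List.getElem_mem h)
  · rw [List.getD_eq_default _ _ (not_lt.1 h), csz_nil]
    exact Nat.zero_le _

theorem csz_getD_nat_le (l : List ℕ) (i : ℕ) : csz (l.getD i 0) ≤ csz l := by
  by_cases h : i < l.length
  · rw [List.getD_eq_getElem _ _ h]
    exact csz_mem (List.getElem_mem h)
  · rw [List.getD_eq_default _ _ (not_lt.1 h)]
    exact Nat.zero_le _

/-! ### The oracles -/

theorem look_orac {M : α → List (List ℕ)} (hM : PTime M) :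
    PTime fun x : α × ℕ × ℕ => look (M x.1) x.2.1 x.2.2 :=
  lookP (hM.comp PTime.fst) (PTime.fst.comp PTime.snd) (PTime.snd.comp PTime.snd)

theorem word_orac {W : α → List (List ℕ)} (hW : PTime W) :
    PTime fun x : α × ℕ => (W x.1).getD x.2 [] :=
  PTime.lgetD (hW.comp PTime.fst) PTime.snd (PTime.const [])

/-! ### The algorithm -/

/-- the cycle cover -/
theorem coverP {S M : α → List (List ℕ)} (hS : PTime S) (hM : PTime M) :
    PTime fun a => cover (S a) (M a) := by
  obtain ⟨r, hr⟩ := hS.csz_le
  exact assignP (PTime.llength hS) (maxLenP hS) (look_orac hM) r r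
    (fun a => (length_le_csz _).trans (hr a)) (fun a => (maxLen_le_csz _).trans (hr a))

/-- the opened cycles -/
theorem openedOfP {S M : α → List (List ℕ)} (hS : PTime S) (hM : PTime M) :
    PTime fun a => openedOf (S a) (M a) := by
  obtain ⟨r, hr⟩ := hS.csz_le
  obtain ⟨rc, hrc⟩ := (coverP hS hM).csz_le
  refine reduceP (openedP (n := fun a => (S a).length) (s := fun a i => (S a).getD i [])
    (o := fun a => look (M a)) (p := fun a i => (cover (S a) (M a)).getD i 0)
    (PTime.llength hS) r (fun a => (length_le_csz _).trans (hr a)) (word_orac hS) r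
    (fun a x => (csz_getD_le _ _).trans (hr a)) (look_orac hM) ?_ rc
    (fun a x => (csz_getD_nat_le _ _).trans (hrc a)))
  exact PTime.lgetD ((coverP hS hM).comp PTime.fst) PTime.snd (PTime.const 0)

/-- merging in the order of the box -/
theorem finishWithP {A : ℕ → ℕ → (ℕ → ℕ → ℕ) → List ℕ} (hA : BoxP A)
    {W M : α → List (List ℕ)} (hW : PTime W) (hM : PTime M) :
    PTime fun a => finishWith A (W a) (M a) := by
  obtain ⟨r, hr⟩ := hW.csz_le
  exact mergeP (s := fun a i => (W a).getD i []) (o := fun a => look (M a))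
    (l := fun a => A (W a).length (maxLen (W a)) (look (M a))) (word_orac hW) (look_orac hM)
    (hA α _ _ _ (PTime.llength hW) (maxLenP hW) (look_orac hM) r r
      (fun a => (length_le_csz _).trans (hr a)) (fun a => (maxLen_le_csz _).trans (hr a))) r
    (fun a x => (csz_getD_le _ _).trans (hr a))

theorem algWith2P {A : ℕ → ℕ → (ℕ → ℕ → ℕ) → List ℕ} (hA : BoxP A)
    {W : α → List (List ℕ)} (hW : PTime W) : PTime fun a => algWith2 A (W a) :=
  finishWithP hA hW (tableP hW)

theorem algWith1P {A : ℕ → ℕ → (ℕ → ℕ → ℕ) → List ℕ} (hA : BoxP A)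
    {S : α → List (List ℕ)} (hS : PTime S) : PTime fun a => algWith1 A (S a) :=
  algWith2P hA (openedOfP hS (tableP hS))

/-- **The algorithm runs in polynomial time, if the box does.** -/
theorem algWithP {A : ℕ → ℕ → (ℕ → ℕ → ℕ) → List ℕ} (hA : BoxP A) :
    PTime fun X : List (List ℕ) => algWith A X :=
  algWith1P hA (cleanP PTime.id)

end Vale.Agent.P333.PT
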