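import Vale.Agent.P337.ListCode
import Vale.Agent.P333.M.Break

/-!
# P333: sizes of the intermediate results of the breaking procedure
-/

namespace Vale.Agent.P333.PT

open Vale.Agent.P337 Vale.Agent.P333.M

/-- The length of the code of a list. -/
theorem codeL_length {β : Type} [Code β] (l : List β) :
    (codeL l).length = (l.map fun b => 2 * (Code.code b).length + 2).sum := by
  induction l with
  | nil => rfl
  | cons b l ih => rw [codeL, length_pairL, ih, List.map_cons, List.sum_cons]

theorem codeL_append_length {β : Type} [Code β] (l m : List β) :
    (codeL (l ++ m)).length = (codeL l).length + (codeL m).length := by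
  simp [codeL_length]

theorem codeL_cons_length {β : Type} [Code β] (b : β) (l : List β) :
    (codeL (b :: l)).length = 2 * (Code.code b).length + 2 + (codeL l).length := by
  simp [codeL_length]

theorem codeL_perm_length {β : Type} [Code β] {l m : List β} (h : l.Perm m) :
    (codeL l).length = (codeL m).length := by
  rw [codeL_length, codeL_length]
  exact (h.map _).sum_eq

theorem codeL_erase_length {β : Type} [Code β] [BEq β] [LawfulBEq β] {b : β} {l : List β} (h : b ∈ l) :
    (codeL l).length = 2 * (Code.code b).length + 2 + (codeL (l.erase b)).length := by
  rw [codeL_perm_length (List.perm_cons_erase h), codeL_cons_length]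

/-- the size of a state -/
def ssz (s : List (List ℕ) × List (List ℕ)) : ℕ := (codeL s.1).length + (codeL s.2).length

theorem code_LN (l : List ℕ) : Code.code l = codeL l := rfl

theorem code_LLN (l : List (List ℕ)) : Code.code l = codeL l := rfl

/-- the step without options -/
theorem step_eq (s : List (List ℕ) × List (List ℕ)) (e : ℕ × ℕ) : step s e =
    if (s.1.filter (fun P => decide (P.getLast? = some e.1))).isEmpty then s
    else if (s.1.filter (fun Q => decide (Q.head? = some e.2))).isEmpty then s
    else if (s.1.filter (fun P => decide (P.getLast? = some e.1))).headD [] =
        (s.1.filter (fun Q => decide (Q.head? = some e.2))).headD [] then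
      (s.1.erase ((s.1.filter (fun P => decide (P.getLast? = some e.1))).headD []),
        (s.1.filter (fun P => decide (P.getLast? = some e.1))).headD [] :: s.2)
    else (((s.1.filter (fun P => decide (P.getLast? = some e.1))).headD [] ++
        (s.1.filter (fun Q => decide (Q.head? = some e.2))).headD []) ::
        (s.1.erase ((s.1.filter (fun P => decide (P.getLast? = some e.1))).headD [])).erase
          ((s.1.filter (fun Q => decide (Q.head? = some e.2))).headD []), s.2) := by
  unfold step
  rw [← List.head?_filter, ← List.head?_filter]
  cases s.1.filter (fun P => decide (P.getLast? = some e.1)) with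
  | nil => rfl
  | cons P l =>
    cases s.1.filter (fun Q => decide (Q.head? = some e.2)) with
    | nil => rfl
    | cons Q m => rfl

theorem step_ssz (s : List (List ℕ) × List (List ℕ)) (e : ℕ × ℕ) : ssz (step s e) ≤ ssz s := by
  rw [step_eq]
  split_ifs with h1 h2 h3
  · exact le_refl _
  · exact le_refl _
  · have hPm : (s.1.filter (fun P => decide (P.getLast? = some e.1))).headD [] ∈ s.1 := by
      cases h : s.1.filter (fun P => decide (P.getLast? = some e.1)) with
      | nil => rw [h] at h1; simp at h1
      | cons P l =>
        have : P ∈ s.1.filter (fun P => decide (P.getLast? = some e.1)) := by rw [h]; simp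
        exact (List.mem_filter.1 this).1
    have h4 := codeL_erase_length hPm
    simp only [ssz, codeL_cons_length]
    omega
  · have hPm : (s.1.filter (fun P => decide (P.getLast? = some e.1))).headD [] ∈ s.1 := by
      cases h : s.1.filter (fun P => decide (P.getLast? = some e.1)) with
      | nil => rw [h] at h1; simp at h1
      | cons P l =>
        have : P ∈ s.1.filter (fun P => decide (P.getLast? = some e.1)) := by rw [h]; simp
        exact (List.mem_filter.1 this).1
    have hQm : (s.1.filter (fun Q => decide (Q.head? = some e.2))).headD [] ∈ s.1 := by
      cases h : s.1.filter (fun Q => decide (Q.head? = some e.2)) with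
      | nil => rw [h] at h2; simp at h2
      | cons Q l =>
        have : Q ∈ s.1.filter (fun Q => decide (Q.head? = some e.2)) := by rw [h]; simp
        exact (List.mem_filter.1 this).1
    generalize (s.1.filter (fun P => decide (P.getLast? = some e.1))).headD [] = P at *
    generalize (s.1.filter (fun Q => decide (Q.head? = some e.2))).headD [] = Q at *
    have hQm' : Q ∈ s.1.erase P := (List.mem_erase_of_ne (Ne.symm h3)).2 hQm
    have h4 := codeL_erase_length hPm
    have h5 := codeL_erase_length hQm'
    have h6 : (Code.code (P ++ Q)).length = (Code.code P).length + (Code.code Q).length := by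
      rw [code_LN, code_LN, code_LN, codeL_append_length]
    simp only [ssz, codeL_cons_length, h6]
    omega

theorem foldl_step_ssz (F : List (ℕ × ℕ)) (s : List (List ℕ) × List (List ℕ)) :
    ssz (F.foldl step s) ≤ ssz s := by
  induction F generalizing s with
  | nil => exact le_refl _
  | cons e F ih => exact (ih _).trans (step_ssz s e)

end Vale.Agent.P333.PT
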