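import Vale.Agent.P333.PT.ListQ
import Vale.Agent.P333.PT.BreakSize

/-!
# P333: the breaking procedure runs in polynomial time
-/

namespace Vale.Agent.P333.PT

open Vale.Agent.P337 Vale.Agent.P333.M

variable {α : Type} [Code α]

/-- state of the breaking procedure -/
abbrev BSt : Type := List (List ℕ) × List (List ℕ)

theorem headP {x : α → ℕ} {l : α → List ℕ} (hx : PTime x) (hl : PTime l) :
    PTime fun a => decide ((l a).head? = some (x a)) := by
  refine (PTime.and (PTime.not (PTime.isEmpty' hl))
    (PTime.eq (PTime.headD' (PTime.const 0) hl) hx)).congr fun a => ?_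
  cases l a with
  | nil => rfl
  | cons b l => simp

theorem getLastP {x : α → ℕ} {l : α → List ℕ} (hx : PTime x) (hl : PTime l) :
    PTime fun a => decide ((l a).getLast? = some (x a)) := by
  refine (headP hx (PTime.lreverse hl)).congr fun a => ?_
  rw [List.head?_reverse]

/-- context of one step -/
theorem stepP : PTime fun x : α × BSt × (ℕ × ℕ) => step x.2.1 x.2.2 := by
  have h0 : PTime fun x : α × BSt × (ℕ × ℕ) => x.2.1 := PTime.fst.comp PTime.snd
  have hs1 : PTime fun x : α × BSt × (ℕ × ℕ) => x.2.1.1 := PTime.fst.comp h0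
  have hs2 : PTime fun x : α × BSt × (ℕ × ℕ) => x.2.1.2 := PTime.snd.comp h0
  have he : PTime fun x : α × BSt × (ℕ × ℕ) => x.2.2 := PTime.snd.comp PTime.snd
  have he1 : PTime fun x : α × BSt × (ℕ × ℕ) => x.2.2.1 := PTime.fst.comp he
  have he2 : PTime fun x : α × BSt × (ℕ × ℕ) => x.2.2.2 := PTime.snd.comp he
  have hA : PTime fun x : α × BSt × (ℕ × ℕ) =>
      x.2.1.1.filter (fun P => decide (P.getLast? = some x.2.2.1)) := by
    refine PTime.lfilter (p := fun x P => decide (P.getLast? = some x.2.2.1)) hs1 ?_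
    exact getLastP (he1.comp PTime.fst) PTime.snd
  have hB : PTime fun x : α × BSt × (ℕ × ℕ) =>
      x.2.1.1.filter (fun Q => decide (Q.head? = some x.2.2.2)) := by
    refine PTime.lfilter (p := fun x Q => decide (Q.head? = some x.2.2.2)) hs1 ?_
    exact headP (he2.comp PTime.fst) PTime.snd
  have hP := PTime.headD' (PTime.const ([] : List ℕ)) hA
  have hQ := PTime.headD' (PTime.const ([] : List ℕ)) hB
  have hE : PTime fun x : α × BSt × (ℕ × ℕ) =>
      decide ((x.2.1.1.filter (fun P => decide (P.getLast? = some x.2.2.1))).headD [] =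
        (x.2.1.1.filter (fun Q => decide (Q.head? = some x.2.2.2))).headD []) := PTime.eq hP hQ
  have hC : PTime fun x : α × BSt × (ℕ × ℕ) =>
      (x.2.1.1.erase ((x.2.1.1.filter (fun P => decide (P.getLast? = some x.2.2.1))).headD []),
        (x.2.1.1.filter (fun P => decide (P.getLast? = some x.2.2.1))).headD [] :: x.2.1.2) :=
    PTime.pair (PTime.lerase hP hs1) (PTime.cons' hP hs2)
  have hD : PTime fun x : α × BSt × (ℕ × ℕ) =>
      (((x.2.1.1.filter (fun P => decide (P.getLast? = some x.2.2.1))).headD [] ++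
        (x.2.1.1.filter (fun Q => decide (Q.head? = some x.2.2.2))).headD []) ::
        (x.2.1.1.erase ((x.2.1.1.filter (fun P => decide (P.getLast? = some x.2.2.1))).headD
          [])).erase ((x.2.1.1.filter (fun Q => decide (Q.head? = some x.2.2.2))).headD []),
        x.2.1.2) :=
    PTime.pair (PTime.cons' (PTime.lappend hP hQ) (PTime.lerase hQ (PTime.lerase hP hs1))) hs2
  refine (PTime.ite (PTime.isEmpty' hA) h0
    (PTime.ite (PTime.isEmpty' hB) h0 (PTime.ite hE hC hD))).congr fun x => ?_
  rw [step_eq]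
  simp only [decide_eq_true_eq]

/-- the lightest edges of the cycles are removed in polynomial time -/
theorem breakFP {w : α → ℕ → ℕ → ℕ} {V : α → List ℕ} {A : α → List (ℕ × ℕ)}
    (hw : PTime fun x : α × ℕ × ℕ => w x.1 x.2.1 x.2.2) (hV : PTime V) (hA : PTime A) :
    PTime fun a => breakF (w a) (V a) (A a) := by
  have hsort : PTime fun a => (A a).insertionSort (fun e f => w a f.1 f.2 ≤ w a e.1 e.2) := by
    refine PTime.linsertionSort (r := fun a e f => w a f.1 f.2 ≤ w a e.1 e.2) ?_ hA
    have h1 : PTime fun x : α × (ℕ × ℕ) × (ℕ × ℕ) => w x.1 x.2.2.1 x.2.2.2 :=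
      hw.comp (PTime.pair PTime.fst (PTime.snd.comp PTime.snd))
    have h2 : PTime fun x : α × (ℕ × ℕ) × (ℕ × ℕ) => w x.1 x.2.1.1 x.2.1.2 :=
      hw.comp (PTime.pair PTime.fst (PTime.fst.comp PTime.snd))
    exact PTime.le h1 h2
  have hinit : PTime fun a => ((V a).map (fun v => [v]), ([] : List (List ℕ))) := by
    refine PTime.pair (PTime.lmap (g := fun _ v => [v]) hV ?_) (PTime.const _)
    exact PTime.cons' PTime.snd (PTime.const _)
  obtain ⟨q, hq⟩ := PTime.length_le hinit
  have hS : PTime fun a => ((A a).insertionSort (fun e f => w a f.1 f.2 ≤ w a e.1 e.2)).foldl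
      (fun s e => step s e) ((V a).map (fun v => [v]), ([] : List (List ℕ))) := by
    refine PTime.foldl (step := fun x : α × BSt × (ℕ × ℕ) => step x.2.1 x.2.2) hsort hinit stepP
      (2 * q + 2) fun a i _ => ?_
    have key1 : ∀ s : BSt, (Code.code s).length ≤ 2 * ssz s + 2 := fun s => by
      rw [code_pair, length_pairL, code_LLN, code_LLN, ssz]
      omega
    have key2 : ∀ s : BSt, ssz s ≤ (Code.code s).length := fun s => by
      rw [code_pair, length_pairL, code_LLN, code_LLN, ssz]
      omega
    have h2 := (key2 _).trans (hq a)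
    have h3 := (key1 _).trans (Nat.add_le_add_right (Nat.mul_le_mul_left 2
      ((foldl_step_ssz (((A a).insertionSort (fun e f => w a f.1 f.2 ≤ w a e.1 e.2)).take i)
        ((V a).map (fun v => [v]), ([] : List (List ℕ)))).trans h2)) 2)
    refine h3.trans (le_of_eq ?_)
    simp only [Polynomial.eval_add, Polynomial.eval_mul, Polynomial.eval_ofNat, csz_def]
  have hR := PTime.lflatten (PTime.lappend (PTime.snd.comp hS) (PTime.fst.comp hS))
  exact hR.congr fun a => rfl

end Vale.Agent.P333.PT
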