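import Vale.Agent.P337.MComp
import Vale.Agent.P337.Fold

/-!
# P333: polynomial time functions between coded types are computed by Turing machines
-/

namespace Vale.Agent.P333.PT

open Turing Function Vale.Agent.P314.TM Vale.Agent.P337

/-- A program which, started with `a` on stack `0` and nothing else, ends with the answer on
stack `1` and nothing else. -/
theorem tm_of_run {α β : Type} (ea : α → List Bool) (eb : β → List Bool) (f : α → β)
    (n : ℕ) (p : NProg) (hp : Below (n + 2) p) (T : Polynomial ℕ)
    (h : ∀ a, RunsIn p (fun k => if k = 0 then ea a else [])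
      (fun k => if k = 1 then eb (f a) else []) (T.eval (ea a).length)) :
    ∃ c : TM2ComputableInPolyTime ea eb f, ∀ k, Finite (c.tm.Γ k) := by
  have key : ∀ a : α, Nonempty (TM2OutputsInTime (bridgeTM n p)
      (List.map (Equiv.refl Bool).invFun (ea a))
      (Option.some ((List.map (Equiv.refl Bool).invFun) (eb (f a))))
      ((T + 1 : Polynomial ℕ).eval (ea a).length)) := by
    intro x
    obtain ⟨t, ht, hr⟩ := h x
    have hm := (run_restr (n := n + 2) hr hp).machine false
    refine ⟨⟨⟨t + 1, ?_⟩, ?_⟩⟩
    · have hi : initList (bridgeTM n p) (List.map (Equiv.refl Bool).invFun (ea x))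
          = (⟨some (some (restr (n + 2) p).start), false,
            fun i : Fin (n + 2) => if (i : ℕ) = 0 then ea x else []⟩ :
            TM2.Cfg (fun _ : Fin (n + 2) => Bool) (Option (restr (n + 2) p).Lbl) Bool) := by
        unfold initList
        congr 1
        refine funext (fun k : Fin (n + 2) => ?_)
        by_cases hk : k = (0 : Fin (n + 2))
        · subst hk
          refine (dif_pos rfl).trans ?_
          exact List.map_id _
        · refine (dif_neg hk).trans ?_
          have : ¬ ((k : ℕ) = 0) := fun h0 => hk (Fin.ext h0)
          exact (if_neg this).symm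
      have ho : haltList (bridgeTM n p) (List.map (Equiv.refl Bool).invFun (eb (f x)))
          = (⟨none, false, fun i : Fin (n + 2) => if (i : ℕ) = 1 then eb (f x) else []⟩ :
            TM2.Cfg (fun _ : Fin (n + 2) => Bool) (Option (restr (n + 2) p).Lbl) Bool) := by
        unfold haltList
        congr 1
        refine funext (fun k : Fin (n + 2) => ?_)
        by_cases hk : k = (1 : Fin (n + 2))
        · subst hk
          refine (dif_pos rfl).trans ?_
          exact List.map_id _
        · refine (dif_neg hk).trans ?_
          have : ¬ ((k : ℕ) = 1) := fun h0 => hk (Fin.ext h0)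
          exact (if_neg this).symm
      rw [hi]
      exact hm.trans (congrArg some ho.symm)
    · simp only [Polynomial.eval_add, Polynomial.eval_one]
      omega
  refine ⟨{ tm := bridgeTM n p
            inputAlphabet := Equiv.refl Bool
            outputAlphabet := Equiv.refl Bool
            time := T + 1
            outputsFun := fun x => (key x).some }, ?_⟩
  intro k
  exact inferInstanceAs (Finite Bool)

/-- Programs that do not destroy their input. -/
theorem tm_of_comp {α β : Type} (ea : α → List Bool) (eb : β → List Bool) (f : α → β)
    (F : List Bool → List Bool) (hF : ∀ a, F (ea a) = eb (f a)) (hc : Comp F) :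
    ∃ c : TM2ComputableInPolyTime ea eb f, ∀ k, Finite (c.tm.Γ k) := by
  obtain ⟨P, w, T, hP⟩ := hc
  obtain ⟨hb, hr⟩ := hP 0 1 2 (by omega) (by omega) (by omega)
  refine tm_of_run ea eb f w (.seq (P 0 1 2) (clearP 0))
    ⟨hb.mono (by omega), by show 0 < w + 2; omega, by show 0 < w + 2; omega⟩
    (T + (2 * Polynomial.X + 1)) fun a => ?_
  have h1 := hr (fun k => if k = 0 then ea a else []) (fun k hk => if_neg (by omega))
    (if_neg (by omega))
  simp only [if_true] at h1
  rw [hF] at h1
  have h2 := runs_clearP 0 (update (fun k => if k = 0 then ea a else [] : NSt) 1 (eb (f a)))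
  have e0 : (update (fun k => if k = 0 then ea a else [] : NSt) 1 (eb (f a)) : NSt) 0 = ea a := by
    rw [update_of_ne (by decide)]
    exact if_pos rfl
  rw [e0] at h2
  refine ((h1.seq h2).mono ?_).congr rfl ?_
  · simp only [Polynomial.eval_add, Polynomial.eval_mul, Polynomial.eval_one, Polynomial.eval_X,
      Polynomial.eval_ofNat]
    omega
  · funext k
    rcases k with _ | _ | k
    · rw [update_self]
      rfl
    · rw [update_of_ne (by decide), update_self]
      rfl
    · rw [update_of_ne (by omega), update_of_ne (by omega)]
      rfl

/-- Polynomial time functions between coded types are computed in polynomial time by the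
multi-stack Turing machines of Mathlib. -/
theorem computable {α β : Type} [Code α] [Code β] {f : α → β} (hf : PTime f) :
    ∃ c : TM2ComputableInPolyTime (Code.code : α → List Bool) (Code.code : β → List Bool) f,
      ∀ k, Finite (c.tm.Γ k) := by
  obtain ⟨F, h1, h2⟩ := hf
  exact tm_of_comp _ _ f F h2 h1.toComp

end Vale.Agent.P333.PT
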