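import Vale.Agent.P333.PT.FinalOf
import Vale.Agent.P333.PT.AlgP
import Vale.Agent.P333.Ex.With73

/-!
P333: a polynomial time box with factor `2/3` gives a polynomial time Turing machine with ratio
`7/3`; a box with factor `δ` gives the ratio `3 - δ`.
-/

namespace Vale.Agent.P333.PT

open Vale.Agent.P337 Vale.Agent.P333.Open

theorem explicit_box {A : ℕ → ℕ → (ℕ → ℕ → ℕ) → List ℕ} (hA : BoxP A) (δ : ℝ) (hδ0 : 0 ≤ δ)
    (hδ1 : δ ≤ 1)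
    (hperm : ∀ (n C : ℕ) (w : ℕ → ℕ → ℕ), (∀ i j, w i j ≤ C) →
      (A n C w).Perm (List.range n))
    (hw : ∀ (n C : ℕ) (w : ℕ → ℕ → ℕ), (∀ i j, w i j ≤ C) →
      ∀ l : List ℕ, l.Perm (List.range n) → δ * (links w l : ℝ) ≤ (links w (A n C w) : ℝ)) :
    ∃ f : List (List ℕ) → List ℕ,
      (∃ c : Turing.TM2ComputableInPolyTime encFam encWord f, ∀ k, Finite (c.tm.Γ k)) ∧
      ∀ X : List (List ℕ), (∀ x ∈ X, x <:+: f X) ∧
        ∀ T : List ℕ, (∀ x ∈ X, x <:+: T) → ((f X).length : ℝ) ≤ (3 - δ) * T.length :=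
  ⟨Ex.algWith A, tm_of_ptime (algWithP hA), fun X => Ex.with_ratio A δ hδ0 hδ1 hperm hw X⟩

theorem explicit73_of {A : ℕ → ℕ → (ℕ → ℕ → ℕ) → List ℕ} (hA : BoxP A)
    (hperm : ∀ (n C : ℕ) (w : ℕ → ℕ → ℕ), (∀ i j, w i j ≤ C) →
      (A n C w).Perm (List.range n))
    (hw : ∀ (n C : ℕ) (w : ℕ → ℕ → ℕ), (∀ i j, w i j ≤ C) →
      ∀ l : List ℕ, l.Perm (List.range n) → 2 * links w l ≤ 3 * links w (A n C w)) :
    ∃ f : List (List ℕ) → List ℕ,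
      (∃ c : Turing.TM2ComputableInPolyTime encFam encWord f, ∀ k, Finite (c.tm.Γ k)) ∧
      ∀ X : List (List ℕ), (∀ x ∈ X, x <:+: f X) ∧
        ∀ T : List ℕ, (∀ x ∈ X, x <:+: T) → 3 * (f X).length ≤ 7 * T.length :=
  ⟨Ex.algWith A, tm_of_ptime (algWithP hA), Ex.seven_thirds_of A hperm hw⟩

end Vale.Agent.P333.PT
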