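import Vale.Agent.P333.PT.Enc
import Vale.Agent.P333.PT.Bridge
import Vale.Agent.P337.ListCode
import Vale.Agent.P333.Ex.With27

/-!
P333: from `PTime alg` to a polynomial time Turing machine with explicit encodings.
-/

namespace Vale.Agent.P333.PT

open Vale.Agent.P337

theorem pairBits_eq (x y : List Bool) : pairBits x y = pairL x y := by
  induction x with
  | nil => rw [pairBits, pairL_nil]
  | cons b x ih => rw [pairBits, pairL_cons, ih]

theorem encWord_eq (w : List ℕ) : encWord w = Code.code w := by
  induction w with
  | nil => rfl
  | cons a w ih =>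
    rw [encWord, pairBits_eq, ih]
    rfl

theorem encFam_eq (X : List (List ℕ)) : encFam X = Code.code X := by
  induction X with
  | nil => rfl
  | cons w X ih =>
    rw [encFam, pairBits_eq, ih, encWord_eq]
    rfl

/-- Polynomial time functions from families of words to words are computed by Turing machines. -/
theorem tm_of_ptime {f : List (List ℕ) → List ℕ} (h : PTime f) :
    ∃ c : Turing.TM2ComputableInPolyTime encFam encWord f, ∀ k, Finite (c.tm.Γ k) := by
  have e1 : encFam = (Code.code : List (List ℕ) → List Bool) := funext encFam_eq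
  have e2 : encWord = (Code.code : List ℕ → List Bool) := funext encWord_eq
  rw [e1, e2]
  exact computable h

/-- The final statement from `PTime alg`. -/
theorem explicit_of (h : PTime (fun X : List (List ℕ) => Ex.alg X)) :
    ∃ f : List (List ℕ) → List ℕ,
      (∃ c : Turing.TM2ComputableInPolyTime encFam encWord f, ∀ k, Finite (c.tm.Γ k)) ∧
      ∀ X : List (List ℕ), (∀ x ∈ X, x <:+: f X) ∧
        ∀ T : List ℕ, (∀ x ∈ X, x <:+: T) → 11 * (f X).length ≤ 27 * T.length :=
  ⟨Ex.alg, tm_of_ptime h, Ex.alg_ratio⟩

end Vale.Agent.P333.PT
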