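import Vale.Agent.P337.Arith2
import Vale.Agent.P337.ListCode
import Vale.Agent.P337.Fold

/-!
# Polynomial time functions on lists

Everything here is for plain lists with the generic code `instCodeListGen` (nested pairs).
The size bounds of folds are stated with the length of the code.
-/

namespace Vale.Agent.P337

variable {α β γ σ : Type} [Code α] [Code β] [Code γ] [Code σ]

/-! ### sizes -/

/-- length of the code -/
def csz {α : Type} [Code α] (a : α) : ℕ := (Code.code a).length

theorem csz_def (a : α) : csz a = (Code.code a).length := rfl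

theorem code_gen (l : List β) : (Code.code l : List Bool) = codeL l := rfl

theorem csz_list (l : List β) : csz l = (l.map fun b => 2 * csz b + 2).sum := by
  rw [csz_def, code_gen]
  induction l with
  | nil => rfl
  | cons b l ih => rw [codeL, length_pairL, ih, List.map_cons, List.sum_cons, csz_def]

theorem csz_nil : csz ([] : List β) = 0 := rfl

theorem csz_cons (b : β) (l : List β) : csz (b :: l) = 2 * csz b + 2 + csz l := by
  rw [csz_list, csz_list, List.map_cons, List.sum_cons]

theorem csz_append (l l' : List β) : csz (l ++ l') = csz l + csz l' := by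
  rw [csz_list, csz_list, csz_list, List.map_append, List.sum_append]

theorem csz_pair (a : α) (b : β) : csz (a, b) = 2 * csz a + 2 + csz b := by
  rw [csz_def, code_pair, length_pairL]; rfl

theorem csz_mem {b : β} {l : List β} (h : b ∈ l) : csz b ≤ csz l := by
  induction l with
  | nil => simp at h
  | cons c l ih =>
    rw [csz_cons]
    rcases List.mem_cons.1 h with rfl | h
    · omega
    · have := ih h; omega

theorem length_le_csz (l : List β) : l.length ≤ csz l := by
  induction l with
  | nil => simp
  | cons c l ih => rw [csz_cons, List.length_cons]; omega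

/-- if every element has size at most `m` and there are at most `n` of them -/
theorem csz_le_of {l : List β} {m n : ℕ} (h : ∀ b ∈ l, csz b ≤ m) (hn : l.length ≤ n) :
    csz l ≤ n * (2 * m + 2) := by
  induction l generalizing n with
  | nil => rw [csz_nil]; omega
  | cons c l ih =>
    rw [csz_cons]
    rw [List.length_cons] at hn
    have h1 := h c List.mem_cons_self
    have h2 := ih (n := n - 1) (fun b hb => h b (List.mem_cons_of_mem _ hb)) (by omega)
    obtain ⟨k, rfl⟩ : ∃ k, n = k + 1 := ⟨n - 1, by omega⟩
    simp only [Nat.add_sub_cancel] at h2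
    have : (k + 1) * (2 * m + 2) = k * (2 * m + 2) + (2 * m + 2) := by ring
    omega

theorem csz_sublist {l l' : List β} (h : l.Sublist l') : csz l ≤ csz l' := by
  induction h with
  | slnil => exact le_rfl
  | cons a _ ih => rw [csz_cons]; omega
  | cons_cons a _ ih => rw [csz_cons, csz_cons]; omega

theorem csz_take (l : List β) (i : ℕ) : csz (l.take i) ≤ csz l := csz_sublist (List.take_sublist i l)

theorem csz_drop (l : List β) (i : ℕ) : csz (l.drop i) ≤ csz l := csz_sublist (List.drop_sublist i l)

theorem csz_perm {l l' : List β} (h : l.Perm l') : csz l = csz l' := by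
  rw [csz_list, csz_list]
  exact (h.map _).sum_eq

theorem csz_nat (n : ℕ) : csz n = n.size := code_nat_length n

theorem csz_nat_le (n : ℕ) : csz n ≤ n := by
  rw [csz_nat]
  exact Nat.size_le.2 Nat.lt_two_pow_self

theorem csz_nat_mono {m n : ℕ} (h : m ≤ n) : csz m ≤ csz n := code_nat_mono h

theorem csz_bool (b : Bool) : csz b = 1 := rfl

/-- the size of the value is bounded by a polynomial in the size of the argument -/
theorem PTime.csz_le {f : α → β} (hf : PTime f) :
    ∃ r : Polynomial ℕ, ∀ a, csz (f a) ≤ r.eval (csz a) := hf.length_le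

/-! ### constructors and destructors -/

theorem PTime.nil' : PTime (fun _ : α => ([] : List β)) := PTime.const _

theorem PTime.cons' {f : α → β} {g : α → List β} (hf : PTime f) (hg : PTime g) :
    PTime (fun a => f a :: g a) := by
  obtain ⟨F, h1, h2⟩ := hf
  obtain ⟨G, h3, h4⟩ := hg
  exact ⟨_, h1.pair h3, fun a => by beta_reduce; rw [h2, h4]; rfl⟩

theorem PTime.toLL {g : α → List β} (hg : PTime g) : PTime (fun a => (⟨g a⟩ : LL β)) := by
  obtain ⟨G, h3, h4⟩ := hg
  exact ⟨G, h3, fun a => by rw [h4]; rfl⟩

theorem PTime.ofLL {g : α → LL β} (hg : PTime g) : PTime (fun a => (g a).list) := by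
  obtain ⟨G, h3, h4⟩ := hg
  exact ⟨G, h3, fun a => by rw [h4]; rfl⟩

theorem PTime.isEmpty' {g : α → List β} (hg : PTime g) : PTime (fun a => (g a).isEmpty) :=
  PTime.lisEmpty hg.toLL

theorem PTime.tail' {g : α → List β} (hg : PTime g) : PTime (fun a => (g a).tail) :=
  (PTime.ltail hg.toLL).ofLL

theorem PTime.headD' {d : α → β} {g : α → List β} (hd : PTime d) (hg : PTime g) :
    PTime (fun a => (g a).headD (d a)) := by
  obtain ⟨E, e1, e2⟩ := PTime.isEmpty' hg
  obtain ⟨D, d1, d2⟩ := hd
  obtain ⟨G, h3, h4⟩ := hg
  refine ⟨_, PT.ite (PTB.head e1) d1 h3.fst, fun a => ?_⟩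
  beta_reduce
  have e3 : (E (Code.code a)).headD false = (g a).isEmpty := by rw [e2]; rfl
  rw [e3, h4, code_gen, d2]
  cases (g a) with
  | nil => rfl
  | cons b l =>
    rw [codeL, fstL_pairL]
    rfl

/-! ### folds -/

/-- one step of a fold over a list -/
private def lstep (d : β) (step : α × σ × β → σ) (x : α × List β × σ) : List β × σ :=
  if x.2.1.isEmpty then x.2 else (x.2.1.tail, step (x.1, x.2.2, x.2.1.headD d))

omit [Code α] [Code β] [Code σ] in
private theorem lstep_iterate (d : β) (step : α × σ × β → σ) (a : α) :
    ∀ (i : ℕ) (l : List β) (s : σ), i ≤ l.length →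
      (fun y => lstep d step (a, y))^[i] (l, s)
        = (l.drop i, (l.take i).foldl (fun s b => step (a, s, b)) s)
  | 0, l, s, _ => by simp
  | i + 1, [], s, h => by simp at h
  | i + 1, b :: l, s, h => by
    rw [Function.iterate_succ_apply]
    have h1 : lstep d step (a, b :: l, s) = (l, step (a, s, b)) := by simp [lstep]
    rw [h1, lstep_iterate d step a i l _ (by simpa using h)]
    simp

omit [Code α] [Code β] [Code σ] in
private theorem lstep_iterate_ge (d : β) (step : α × σ × β → σ) (a : α) :
    ∀ (i : ℕ) (l : List β) (s : σ), l.length ≤ i →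
      (fun y => lstep d step (a, y))^[i] (l, s)
        = ([], l.foldl (fun s b => step (a, s, b)) s)
  | 0, l, s, h => by
    have : l = [] := List.eq_nil_of_length_eq_zero (by omega)
    subst this
    simp
  | i + 1, [], s, _ => by
    rw [Function.iterate_succ_apply]
    have h1 : lstep d step (a, [], s) = ([], s) := by simp [lstep]
    rw [h1, lstep_iterate_ge d step a i [] s (by simp)]
  | i + 1, b :: l, s, h => by
    rw [Function.iterate_succ_apply]
    have h1 : lstep d step (a, b :: l, s) = (l, step (a, s, b)) := by simp [lstep]
    rw [h1, lstep_iterate_ge d step a i l _ (by simpa using h)]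
    simp

/-- Folds over lists. Only the codes of the intermediate results have to be bounded. -/
theorem PTime.foldl {l : α → List β} {init : α → σ} {step : α × σ × β → σ}
    (hl : PTime l) (hi : PTime init) (hs : PTime step) (q : Polynomial ℕ)
    (hq : ∀ a i, i ≤ (l a).length →
      csz (((l a).take i).foldl (fun s b => step (a, s, b)) (init a)) ≤ q.eval (csz a)) :
    PTime (fun a => (l a).foldl (fun s b => step (a, s, b)) (init a)) := by
  rcases isEmpty_or_nonempty β with he | ⟨⟨d⟩⟩
  · refine hi.congr fun a => ?_
    have : l a = [] := by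
      cases h : l a with
      | nil => rfl
      | cons b _ => exact (he.false b).elim
    rw [this]
    rfl
  obtain ⟨r, hr⟩ := hl.csz_le
  have hstep : PTime (lstep d step) := by
    refine PTime.ite (PTime.isEmpty' (PTime.fst.comp PTime.snd)) PTime.snd
      (PTime.pair (PTime.tail' (PTime.fst.comp PTime.snd))
        (hs.comp (PTime.fst.pair ((PTime.snd.comp PTime.snd).pair
          (PTime.headD' (PTime.const d) (PTime.fst.comp PTime.snd))))))
  have h1 := PTime.iter (l := fun a => Code.code (l a)) (step := lstep d step)
    (PTime.code.comp hl) (hl.pair hi) hstep (2 * r + 2 + q)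
    (fun a i _ => by
      have h2 := hr a
      rcases Nat.le_total i (l a).length with hia | hia
      · rw [lstep_iterate d step a i (l a) (init a) hia]
        have h3 := hq a i hia
        have h5 := csz_drop (l a) i
        change csz ((l a).drop i, ((l a).take i).foldl (fun s b => step (a, s, b)) (init a)) ≤
          Polynomial.eval (csz a) _
        rw [csz_pair]
        simp only [Polynomial.eval_add, Polynomial.eval_mul, Polynomial.eval_ofNat]
        omega
      · rw [lstep_iterate_ge d step a i (l a) (init a) hia]
        have h3 := hq a (l a).length le_rfl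
        rw [List.take_length] at h3
        change csz (([] : List β), (l a).foldl (fun s b => step (a, s, b)) (init a)) ≤
          Polynomial.eval (csz a) _
        rw [csz_pair, csz_nil]
        simp only [Polynomial.eval_add, Polynomial.eval_mul, Polynomial.eval_ofNat]
        omega)
  refine (PTime.snd.comp h1).congr fun a => ?_
  rw [lstep_iterate_ge d step a _ (l a) (init a)]
  exact length_le_csz (l a)

/-- the same, with the function written with three arguments -/
theorem PTime.foldl' {l : α → List β} {init : α → σ} {step : α → σ → β → σ}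
    (hl : PTime l) (hi : PTime init) (hs : PTime fun x : α × σ × β => step x.1 x.2.1 x.2.2)
    (q : Polynomial ℕ)
    (hq : ∀ a i, i ≤ (l a).length →
      csz (((l a).take i).foldl (step a) (init a)) ≤ q.eval (csz a)) :
    PTime (fun a => (l a).foldl (step a) (init a)) :=
  PTime.foldl (step := fun x => step x.1 x.2.1 x.2.2) hl hi hs q hq

/-! ### list programs -/

omit [Code α] [Code β] in
theorem foldl_cons_eq (l acc : List β) : l.foldl (fun s b => b :: s) acc = l.reverse ++ acc := by
  induction l generalizing acc with
  | nil => rfl
  | cons b l ih => rw [List.foldl_cons, ih, List.reverse_cons, List.append_assoc]; rfl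

theorem PTime.lrevAppend {f g : α → List β} (hf : PTime f) (hg : PTime g) :
    PTime (fun a => (f a).reverse ++ g a) := by
  obtain ⟨r, hr⟩ := hf.csz_le
  obtain ⟨t, ht⟩ := hg.csz_le
  have h1 := PTime.foldl' (step := fun (_ : α) (s : List β) (b : β) => b :: s) hf hg
    (PTime.cons' (PTime.snd.comp PTime.snd) (PTime.fst.comp PTime.snd)) (r + t) (fun a i _ => by
      rw [foldl_cons_eq, csz_append, csz_perm (List.reverse_perm _), Polynomial.eval_add]
      have h1 := csz_take (f a) i
      have h2 := hr a
      have h3 := ht a
      omega)
  exact h1.congr fun a => foldl_cons_eq _ _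

theorem PTime.lreverse {l : α → List β} (hl : PTime l) : PTime (fun a => (l a).reverse) :=
  (hl.lrevAppend PTime.nil').congr fun a => List.append_nil _

theorem PTime.lappend {f g : α → List β} (hf : PTime f) (hg : PTime g) :
    PTime (fun a => f a ++ g a) :=
  (hf.lreverse.lrevAppend hg).congr fun a => by rw [List.reverse_reverse]

omit [Code α] [Code β] [Code γ] in
theorem foldl_map_eq (g : β → γ) (l : List β) (acc : List γ) :
    l.foldl (fun s b => g b :: s) acc = (l.map g).reverse ++ acc := by
  induction l generalizing acc with
  | nil => rfl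
  | cons b l ih =>
    rw [List.foldl_cons, ih, List.map_cons, List.reverse_cons, List.append_assoc]; rfl

theorem PTime.lmap {l : α → List β} {g : α → β → γ} (hl : PTime l)
    (hg : PTime fun x : α × β => g x.1 x.2) : PTime (fun a => (l a).map (g a)) := by
  obtain ⟨r, hr⟩ := hl.csz_le
  obtain ⟨t, ht⟩ := hg.csz_le
  have h1 := PTime.foldl' (step := fun (a : α) (s : List γ) (b : β) => g a b :: s) hl PTime.nil'
    (PTime.cons' (hg.comp (PTime.fst.pair (PTime.snd.comp PTime.snd)))
      (PTime.fst.comp PTime.snd))
    (r * (2 * t.comp (2 * Polynomial.X + 2 + r) + 2)) (fun a i _ => by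
      rw [foldl_map_eq, List.append_nil, csz_perm (List.reverse_perm _)]
      have h2 := hr a
      have h3 := length_le_csz (l a)
      refine (csz_le_of (m := (t.comp (2 * Polynomial.X + 2 + r)).eval (csz a))
        (n := r.eval (csz a)) ?_ ?_).trans ?_
      · intro c hc
        obtain ⟨b, hb, rfl⟩ := List.mem_map.1 hc
        have hb' := csz_mem (List.mem_of_mem_take hb)
        refine (ht (a, b)).trans ?_
        rw [Polynomial.eval_comp, csz_pair]
        refine eval_le_eval t ?_
        simp only [Polynomial.eval_add, Polynomial.eval_mul, Polynomial.eval_ofNat,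
          Polynomial.eval_X]
        omega
      · rw [List.length_map, List.length_take]
        omega
      · simp only [Polynomial.eval_add, Polynomial.eval_mul, Polynomial.eval_ofNat, le_refl])
  refine h1.lreverse.congr fun a => ?_
  rw [foldl_map_eq, List.append_nil, List.reverse_reverse]

omit [Code α] [Code β] in
theorem foldl_filter_eq (p : β → Bool) (l : List β) (acc : List β) :
    l.foldl (fun s b => if p b then b :: s else s) acc = (l.filter p).reverse ++ acc := by
  induction l generalizing acc with
  | nil => rfl
  | cons b l ih =>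
    rw [List.foldl_cons, ih, List.filter_cons]
    split_ifs
    · rw [List.reverse_cons, List.append_assoc]; rfl
    · rfl

theorem PTime.lfilter {l : α → List β} {p : α → β → Bool} (hl : PTime l)
    (hp : PTime fun x : α × β => p x.1 x.2) : PTime (fun a => (l a).filter (p a)) := by
  obtain ⟨r, hr⟩ := hl.csz_le
  have h1 := PTime.foldl' (step := fun (a : α) (s : List β) (b : β) =>
      if p a b then b :: s else s) hl PTime.nil'
    (PTime.ite (hp.comp (PTime.fst.pair (PTime.snd.comp PTime.snd)))
      (PTime.cons' (PTime.snd.comp PTime.snd) (PTime.fst.comp PTime.snd))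
      (PTime.fst.comp PTime.snd)) r (fun a i _ => by
      rw [foldl_filter_eq, List.append_nil, csz_perm (List.reverse_perm _)]
      exact (csz_sublist List.filter_sublist).trans ((csz_take _ _).trans (hr a)))
  refine h1.lreverse.congr fun a => ?_
  rw [foldl_filter_eq, List.append_nil, List.reverse_reverse]

omit [Code α] [Code β] in
theorem foldl_any_eq (p : β → Bool) (l : List β) (c : Bool) :
    l.foldl (fun s b => s || p b) c = (c || l.any p) := by
  induction l generalizing c with
  | nil => simp
  | cons b l ih => rw [List.foldl_cons, ih, List.any_cons, Bool.or_assoc]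

theorem PTime.lany {l : α → List β} {p : α → β → Bool} (hl : PTime l)
    (hp : PTime fun x : α × β => p x.1 x.2) : PTime (fun a => (l a).any (p a)) := by
  have h1 := PTime.foldl' (step := fun (a : α) (s : Bool) (b : β) => s || p a b) hl
    (PTime.const false)
    (PTime.or (PTime.fst.comp PTime.snd) (hp.comp (PTime.fst.pair (PTime.snd.comp PTime.snd))))
    1 (fun a i _ => by rw [csz_bool, Polynomial.eval_one])
  refine h1.congr fun a => ?_
  rw [foldl_any_eq, Bool.false_or]

theorem PTime.lall {l : α → List β} {p : α → β → Bool} (hl : PTime l)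
    (hp : PTime fun x : α × β => p x.1 x.2) : PTime (fun a => (l a).all (p a)) := by
  refine (PTime.not (hl.lany (p := fun a b => !p a b) hp.not)).congr fun a => ?_
  rw [List.all_eq_not_any_not]

omit [Code α] [Code β] in
theorem foldl_length_eq (l : List β) (n : ℕ) : l.foldl (fun s _ => s + 1) n = n + l.length := by
  induction l generalizing n with
  | nil => rfl
  | cons b l ih => rw [List.foldl_cons, ih, List.length_cons]; omega

theorem PTime.llength {l : α → List β} (hl : PTime l) : PTime (fun a => (l a).length) := by
  obtain ⟨r, hr⟩ := hl.csz_le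
  have h1 := PTime.foldl' (step := fun (_ : α) (s : ℕ) (_ : β) => s + 1) hl (PTime.const 0)
    (PTime.add (PTime.fst.comp PTime.snd) (PTime.const 1)) r (fun a i hi => by
      rw [foldl_length_eq]
      have h2 := csz_nat_le (0 + ((l a).take i).length)
      have h3 := length_le_csz (l a)
      have h4 := hr a
      rw [List.length_take] at h2 ⊢
      omega)
  refine h1.congr fun a => ?_
  rw [foldl_length_eq, Nat.zero_add]

theorem csz_add_le (m n : ℕ) : csz (m + n) ≤ csz m + csz n := by
  rw [csz_nat, csz_nat, csz_nat, Nat.size_le]
  have h1 := Nat.lt_size_self m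
  have h2 := Nat.lt_size_self n
  rw [pow_add]
  rcases Nat.eq_zero_or_pos m with rfl | hm
  · simpa using h2
  rcases Nat.eq_zero_or_pos n with rfl | hn
  · simpa using h1
  have h3 : 2 ≤ 2 ^ m.size := by omega
  have h4 : 2 ≤ 2 ^ n.size := by omega
  nlinarith

theorem csz_sum_le (l : List ℕ) : csz l.sum ≤ csz l := by
  induction l with
  | nil => simp [csz_nil, csz_nat]
  | cons x l ih =>
    rw [List.sum_cons, csz_cons]
    have := csz_add_le x l.sum
    omega

omit [Code α] in
theorem foldl_sum_eq (l : List ℕ) (n : ℕ) : l.foldl (fun s x => s + x) n = n + l.sum := by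
  induction l generalizing n with
  | nil => rfl
  | cons b l ih => rw [List.foldl_cons, ih, List.sum_cons]; omega

theorem PTime.lsum {l : α → List ℕ} (hl : PTime l) : PTime (fun a => (l a).sum) := by
  obtain ⟨r, hr⟩ := hl.csz_le
  have h1 := PTime.foldl' (step := fun (_ : α) (s : ℕ) (x : ℕ) => s + x) hl (PTime.const 0)
    (PTime.add (PTime.fst.comp PTime.snd) (PTime.snd.comp PTime.snd)) r (fun a i hi => by
      rw [foldl_sum_eq, Nat.zero_add]
      exact (csz_sum_le _).trans ((csz_take _ _).trans (hr a)))
  refine h1.congr fun a => ?_
  rw [foldl_sum_eq, Nat.zero_add]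

omit [Code α] [Code β] in
theorem foldl_flatten_eq (l : List (List β)) (acc : List β) :
    l.foldl (fun s b => s ++ b) acc = acc ++ l.flatten := by
  induction l generalizing acc with
  | nil => simp
  | cons b l ih => rw [List.foldl_cons, ih, List.flatten_cons, List.append_assoc]

theorem csz_flatten_le (l : List (List β)) : csz l.flatten ≤ csz l := by
  induction l with
  | nil => simp [csz_nil]
  | cons x l ih =>
    rw [List.flatten_cons, csz_cons, csz_append]
    omega

theorem PTime.lflatten {l : α → List (List β)} (hl : PTime l) :
    PTime (fun a => (l a).flatten) := by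
  obtain ⟨r, hr⟩ := hl.csz_le
  have h1 := PTime.foldl' (step := fun (_ : α) (s : List β) (x : List β) => s ++ x) hl PTime.nil'
    (PTime.lappend (PTime.fst.comp PTime.snd) (PTime.snd.comp PTime.snd)) r (fun a i hi => by
      rw [foldl_flatten_eq, List.nil_append]
      exact (csz_flatten_le _).trans ((csz_take _ _).trans (hr a)))
  refine h1.congr fun a => ?_
  rw [foldl_flatten_eq, List.nil_append]

/-! ### counters -/

/-- one step of `unaryN` -/
private def ustep (x : ℕ × List Bool) : ℕ × List Bool :=
  if decide (x.1 = 0) then x else (x.1 - 1, true :: x.2)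

private theorem ustep_iterate : ∀ (i n k : ℕ),
    ustep^[i] (n, List.replicate k true) = (n - i, List.replicate (k + min i n) true)
  | 0, n, k => by simp
  | i + 1, 0, k => by
    rw [Function.iterate_succ_apply]
    have : ustep (0, List.replicate k true) = (0, List.replicate k true) := by simp [ustep]
    rw [this, ustep_iterate i 0 k]
    simp
  | i + 1, n + 1, k => by
    rw [Function.iterate_succ_apply]
    have : ustep (n + 1, List.replicate k true) = (n, List.replicate (k + 1) true) := by
      simp [ustep, List.replicate_succ]
    rw [this, ustep_iterate i n (k + 1)]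
    have e1 : n - i = n + 1 - (i + 1) := by omega
    have e2 : k + 1 + min i n = k + min (i + 1) (n + 1) := by omega
    rw [e1, e2]

/-- a unary counter -/
theorem PTime.unaryN {n : α → ℕ} (hn : PTime n) (q : Polynomial ℕ)
    (hq : ∀ a, n a ≤ q.eval (Code.code a).length) :
    PTime (fun a => List.replicate (n a) true) := by
  obtain ⟨r, hr⟩ := hn.csz_le
  have hs : PTime (fun x : α × ℕ × List Bool => ustep x.2) :=
    PTime.ite (PTime.eq (PTime.fst.comp PTime.snd) (PTime.const 0)) PTime.snd
      ((PTime.sub (PTime.fst.comp PTime.snd) (PTime.const 1)).pair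
        (PTime.cons true (PTime.snd.comp PTime.snd)))
  have h1 := PTime.iter (l := fun a => List.replicate (q.eval (Code.code a).length) true)
    (init := fun a => (n a, ([] : List Bool))) (step := fun x : α × ℕ × List Bool => ustep x.2)
    (PTime.unary q PTime.code) (hn.pair (PTime.const [])) hs (2 * r + 2 + q) (fun a i _ => by
      change csz (ustep^[i] (n a, List.replicate 0 true)) ≤ _
      rw [ustep_iterate, csz_pair]
      have h2 := hr a
      have h3 : csz (n a - i) ≤ csz (n a) := csz_nat_mono (Nat.sub_le _ _)
      have h4 : csz (List.replicate (0 + min i (n a)) true) = 0 + min i (n a) := by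
        rw [csz_def, code_list, List.length_replicate]
      have h5 := hq a
      rw [h4]
      simp only [Polynomial.eval_add, Polynomial.eval_mul, Polynomial.eval_ofNat]
      rw [csz_def a] at h2
      omega)
  refine (PTime.snd.comp h1).congr fun a => ?_
  change (ustep^[(List.replicate (q.eval (Code.code a).length) true).length]
    (n a, List.replicate 0 true)).2 = _
  rw [ustep_iterate, List.length_replicate]
  have := hq a
  simp only
  congr 1
  omega

/-- bounded iteration with a number of rounds given in binary -/
theorem PTime.iterN {n : α → ℕ} {init : α → σ} {step : α → σ → σ} (hn : PTime n)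
    (qn : Polynomial ℕ) (hqn : ∀ a, n a ≤ qn.eval (Code.code a).length) (hi : PTime init)
    (hs : PTime fun x : α × σ => step x.1 x.2) (q : Polynomial ℕ)
    (hq : ∀ a i, i ≤ n a →
      (Code.code ((step a)^[i] (init a))).length ≤ q.eval (Code.code a).length) :
    PTime (fun a => (step a)^[n a] (init a)) := by
  have h1 := PTime.iter (l := fun a => List.replicate (n a) true) (init := init)
    (step := fun x : α × σ => step x.1 x.2) (PTime.unaryN hn qn hqn) hi hs q (fun a i hia => by
      rw [List.length_replicate] at hia
      exact hq a i hia)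
  refine h1.congr fun a => ?_
  rw [List.length_replicate]

/-- one step of `lrange` -/
private def rstep (x : ℕ × List ℕ) : ℕ × List ℕ := (x.1 - 1, (x.1 - 1) :: x.2)

private theorem rstep_iterate : ∀ (i n : ℕ) (l : List ℕ), i ≤ n →
    rstep^[i] (n, l) = (n - i, (List.range' (n - i) i) ++ l)
  | 0, n, l, _ => by simp
  | i + 1, n, l, h => by
    rw [Function.iterate_succ_apply', rstep_iterate i n l (by omega)]
    simp only [rstep, Prod.mk.injEq]
    refine ⟨by omega, ?_⟩
    rw [List.range'_succ, List.cons_append]
    have : n - i - 1 + 1 = n - i := by omega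
    have h2 : n - (i + 1) = n - i - 1 := by omega
    rw [h2, this]

theorem PTime.lrange {n : α → ℕ} (hn : PTime n) (q : Polynomial ℕ)
    (hq : ∀ a, n a ≤ q.eval (Code.code a).length) : PTime (fun a => List.range (n a)) := by
  obtain ⟨r, hr⟩ := hn.csz_le
  have hs : PTime (fun x : α × ℕ × List ℕ => rstep x.2) :=
    (PTime.sub (PTime.fst.comp PTime.snd) (PTime.const 1)).pair
      (PTime.cons' (PTime.sub (PTime.fst.comp PTime.snd) (PTime.const 1))
        (PTime.snd.comp PTime.snd))
  have h1 := PTime.iterN (init := fun a => (n a, ([] : List ℕ)))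
    (step := fun (_ : α) (x : ℕ × List ℕ) => rstep x) hn q hq
    (hn.pair PTime.nil') hs (2 * r + 2 + q * (2 * r + 2)) (fun a i hia => by
      change csz (rstep^[i] (n a, ([] : List ℕ))) ≤ _
      rw [rstep_iterate i (n a) [] hia, csz_pair, List.append_nil]
      have h2 := hr a
      have h3 : csz (n a - i) ≤ csz (n a) := csz_nat_mono (Nat.sub_le _ _)
      have h5 := hq a
      have h4 : csz (List.range' (n a - i) i) ≤
          q.eval (csz a) * (2 * r.eval (csz a) + 2) := by
        refine csz_le_of (fun b hb => ?_) ?_
        · rw [List.mem_range'_1] at hb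
          exact (csz_nat_mono (by omega)).trans h2
        · rw [List.length_range']
          exact hia.trans h5
      simp only [Polynomial.eval_add, Polynomial.eval_mul, Polynomial.eval_ofNat]
      rw [csz_def a] at h2 h4
      omega)
  refine (PTime.snd.comp h1).congr fun a => ?_
  rw [rstep_iterate _ _ _ le_rfl, List.range_eq_range']
  simp

/-! ### random access -/

/-- one step of `ldropN` -/
private def dstep (x : ℕ × List β) : ℕ × List β :=
  if decide (x.1 = 0) then x else (x.1 - 1, x.2.tail)

omit [Code β] in
private theorem dstep_fold (l' : List β) : ∀ (n : ℕ) (l : List β),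
    l'.foldl (fun s _ => dstep s) (n, l) = (n - l'.length, l.drop (min n l'.length)) := by
  induction l' with
  | nil => intro n l; simp
  | cons b l' ih =>
    intro n l
    rw [List.foldl_cons]
    cases n with
    | zero =>
      have : dstep (0, l) = (0, l) := by simp [dstep]
      rw [this, ih]
      simp
    | succ n =>
      have : dstep (n + 1, l) = (n, l.tail) := by simp [dstep]
      have e1 : n - l'.length = n + 1 - (l'.length + 1) := by omega
      have e2 : min (n + 1) (l'.length + 1) = min n l'.length + 1 := by omega
      rw [this, ih, List.length_cons, List.drop_tail, e1, e2]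

theorem PTime.ldropN {l : α → List β} {i : α → ℕ} (hl : PTime l) (hi : PTime i) :
    PTime (fun a => (l a).drop (i a)) := by
  obtain ⟨r, hr⟩ := hl.csz_le
  obtain ⟨t, ht⟩ := hi.csz_le
  have hs : PTime (fun x : α × (ℕ × List β) × β => dstep x.2.1) :=
    PTime.ite (PTime.eq (PTime.fst.comp (PTime.fst.comp PTime.snd)) (PTime.const 0))
      (PTime.fst.comp PTime.snd)
      ((PTime.sub (PTime.fst.comp (PTime.fst.comp PTime.snd)) (PTime.const 1)).pair
        (PTime.tail' (PTime.snd.comp (PTime.fst.comp PTime.snd))))
  have h1 := PTime.foldl' (init := fun a => (i a, l a))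
    (step := fun (_ : α) (s : ℕ × List β) (_ : β) => dstep s) hl (hi.pair hl) hs
    (2 * t + 2 + r) (fun a j _ => by
      rw [dstep_fold, csz_pair]
      have h2 := hr a
      have h3 := ht a
      have h4 : csz (i a - ((l a).take j).length) ≤ csz (i a) := csz_nat_mono (Nat.sub_le _ _)
      have h5 := csz_drop (l a) (min (i a) ((l a).take j).length)
      simp only [Polynomial.eval_add, Polynomial.eval_mul, Polynomial.eval_ofNat]
      omega)
  refine (PTime.snd.comp h1).congr fun a => ?_
  rw [dstep_fold]
  simp only
  rcases Nat.le_total (i a) (l a).length with h | h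
  · rw [min_eq_left h]
  · rw [min_eq_right h, List.drop_length, List.drop_of_length_le h]

omit [Code β] in
theorem headD_drop (l : List β) (i : ℕ) (d : β) : (l.drop i).headD d = l.getD i d := by
  rw [List.headD_eq_head?_getD, List.head?_drop, List.getD_eq_getElem?_getD]

theorem PTime.lgetD {l : α → List β} {i : α → ℕ} {d : α → β} (hl : PTime l) (hi : PTime i)
    (hd : PTime d) : PTime (fun a => (l a).getD (i a) (d a)) :=
  (hd.headD' (hl.ldropN hi)).congr fun a => headD_drop _ _ _

/-- one step of `lset` -/
private def sstep (i : ℕ) (y : β) (s : ℕ × List β) (b : β) : ℕ × List β :=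
  (s.1 + 1, (if decide (s.1 = i) then y else b) :: s.2)

omit [Code β] in
private theorem sstep_fold (i : ℕ) (y : β) (l : List β) : ∀ (k : ℕ) (acc : List β),
    l.foldl (sstep i y) (k, acc) =
      (k + l.length, (if k ≤ i then l.set (i - k) y else l).reverse ++ acc) := by
  induction l with
  | nil => intro k acc; simp
  | cons b l ih =>
    intro k acc
    rw [List.foldl_cons, sstep, ih, List.length_cons]
    simp only [decide_eq_true_eq, Prod.mk.injEq]
    refine ⟨by omega, ?_⟩
    rcases lt_trichotomy k i with h | h | h
    · rw [if_pos (by omega : k + 1 ≤ i), if_neg (by omega : ¬ k = i), if_pos (by omega : k ≤ i)]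
      have : i - k = (i - (k + 1)) + 1 := by omega
      rw [this, List.set_cons_succ, List.reverse_cons, List.append_assoc]
      rfl
    · subst h
      rw [if_neg (by omega : ¬ k + 1 ≤ k), if_pos rfl, if_pos le_rfl, Nat.sub_self,
        List.set_cons_zero, List.reverse_cons, List.append_assoc]
      rfl
    · rw [if_neg (by omega : ¬ k + 1 ≤ i), if_neg (by omega : ¬ k = i),
        if_neg (by omega : ¬ k ≤ i), List.reverse_cons, List.append_assoc]
      rfl

theorem csz_set_le (l : List β) (i : ℕ) (y : β) : csz (l.set i y) ≤ csz l + 2 * csz y := by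
  induction l generalizing i with
  | nil => simp
  | cons b l ih =>
    cases i with
    | zero => rw [List.set_cons_zero, csz_cons, csz_cons]; omega
    | succ i => rw [List.set_cons_succ, csz_cons, csz_cons]; have := ih i; omega

theorem PTime.lset {l : α → List β} {i : α → ℕ} {y : α → β} (hl : PTime l) (hi : PTime i)
    (hy : PTime y) : PTime (fun a => (l a).set (i a) (y a)) := by
  obtain ⟨r, hr⟩ := hl.csz_le
  obtain ⟨t, ht⟩ := hy.csz_le
  have hs : PTime (fun x : α × (ℕ × List β) × β => sstep (i x.1) (y x.1) x.2.1 x.2.2) :=
    (PTime.add (PTime.fst.comp (PTime.fst.comp PTime.snd)) (PTime.const 1)).pair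
      (PTime.cons' (PTime.ite (PTime.eq (PTime.fst.comp (PTime.fst.comp PTime.snd))
        (hi.comp PTime.fst)) (hy.comp PTime.fst) (PTime.snd.comp PTime.snd))
        (PTime.snd.comp (PTime.fst.comp PTime.snd)))
  have h1 := PTime.foldl' (init := fun a => (0, ([] : List β)))
    (step := fun (a : α) (s : ℕ × List β) (b : β) => sstep (i a) (y a) s b) hl
    ((PTime.const 0).pair PTime.nil') hs (2 * r + 2 + (r + 2 * t)) (fun a j _ => by
      rw [sstep_fold, csz_pair, List.append_nil, csz_perm (List.reverse_perm _),
        if_pos (Nat.zero_le _)]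
      have h2 := hr a
      have h3 := ht a
      have h4 := csz_set_le ((l a).take j) (i a - 0) (y a)
      have h5 := csz_take (l a) j
      have h6 := csz_nat_le (0 + ((l a).take j).length)
      have h7 := length_le_csz ((l a).take j)
      simp only [Polynomial.eval_add, Polynomial.eval_mul, Polynomial.eval_ofNat]
      omega)
  refine (PTime.snd.comp h1).lreverse.congr fun a => ?_
  rw [sstep_fold]
  simp

theorem PTime.lfindD {l : α → List β} {p : α → β → Bool} {d : α → β} (hl : PTime l)
    (hp : PTime fun x : α × β => p x.1 x.2) (hd : PTime d) :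
    PTime (fun a => ((l a).find? (p a)).getD (d a)) := by
  refine (hd.headD' (hl.lfilter hp)).congr fun a => ?_
  rw [List.headD_eq_head?_getD, List.head?_filter]

end Vale.Agent.P337
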