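import Vale.Agent.P333.PT.ListQ

/-!
# P333: polynomial time functions on lists, third part

Conditions given as propositions, membership, `Nodup`, `filterMap`, `flatMap`, `count`, `lookup`,
`foldr`, `zipWith`, `zipIdx`, `findIdx`, options, folds with an invariant.
-/

namespace Vale.Agent.P337

section

variable {α β γ δ σ : Type} [Code α] [Code β] [Code γ] [Code δ] [Code σ]

/-! ### Conditions -/

omit [Code α] in
theorem decide_congr' {p q : Prop} {ip : Decidable p} {iq : Decidable q} (h : p ↔ q) :
    decide p = decide q := decide_eq_decide.2 h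

/-- change the proposition (and the decision procedure) -/
theorem PTime.dcongr {p q : α → Prop} {ip : ∀ a, Decidable (p a)} {iq : ∀ a, Decidable (q a)}
    (h : ∀ a, p a ↔ q a) (hp : PTime fun a => decide (p a)) : PTime fun a => decide (q a) :=
  hp.congr fun a => decide_eq_decide.2 (h a)

theorem PTime.dofBool {p : α → Bool} (hp : PTime p) : PTime fun a => decide (p a = true) :=
  hp.congr fun a => by cases p a <;> rfl

theorem PTime.dnot {p : α → Prop} {ip : ∀ a, Decidable (p a)} {iq : ∀ a, Decidable (¬ p a)}
    (hp : PTime fun a => decide (p a)) : PTime fun a => decide (¬ p a) :=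
  (PTime.not hp).congr fun a => by by_cases h : p a <;> simp [h]

theorem PTime.dand {p q : α → Prop} {ip : ∀ a, Decidable (p a)} {iq : ∀ a, Decidable (q a)}
    {ir : ∀ a, Decidable (p a ∧ q a)} (hp : PTime fun a => decide (p a))
    (hq : PTime fun a => decide (q a)) : PTime fun a => decide (p a ∧ q a) :=
  (PTime.and hp hq).congr fun a => by by_cases h : p a <;> by_cases h' : q a <;> simp [h, h']

theorem PTime.dor {p q : α → Prop} {ip : ∀ a, Decidable (p a)} {iq : ∀ a, Decidable (q a)}
    {ir : ∀ a, Decidable (p a ∨ q a)} (hp : PTime fun a => decide (p a))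
    (hq : PTime fun a => decide (q a)) : PTime fun a => decide (p a ∨ q a) :=
  (PTime.or hp hq).congr fun a => by by_cases h : p a <;> by_cases h' : q a <;> simp [h, h']

theorem PTime.dimp {p q : α → Prop} {ip : ∀ a, Decidable (p a)} {iq : ∀ a, Decidable (q a)}
    {ir : ∀ a, Decidable (p a → q a)} (hp : PTime fun a => decide (p a))
    (hq : PTime fun a => decide (q a)) : PTime fun a => decide (p a → q a) :=
  (PTime.or (PTime.not hp) hq).congr fun a => by
    by_cases h : p a <;> by_cases h' : q a <;> simp [h, h']

/-- if the conditions are propositions -/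
theorem PTime.dite' {c : α → Prop} {ic : ∀ a, Decidable (c a)} {f g : α → β}
    (hc : PTime fun a => decide (c a)) (hf : PTime f) (hg : PTime g) :
    PTime fun a => if c a then f a else g a :=
  (PTime.ite hc hf hg).congr fun a => by by_cases h : c a <;> simp [h]

theorem PTime.dne {f g : α → β} [DecidableEq β] (hf : PTime f) (hg : PTime g) :
    PTime fun a => decide (f a ≠ g a) :=
  (PTime.not (PTime.eq hf hg)).congr fun a => by by_cases h : f a = g a <;> simp [h]

theorem PTime.beq [BEq β] [LawfulBEq β] {f g : α → β} (hf : PTime f) (hg : PTime g) :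
    PTime fun a => f a == g a := by
  classical
  exact (PTime.eq hf hg).congr fun a => by by_cases h : f a = g a <;> simp [h]

theorem PTime.bne [BEq β] [LawfulBEq β] {f g : α → β} (hf : PTime f) (hg : PTime g) :
    PTime fun a => f a != g a := PTime.not (PTime.beq hf hg)

theorem PTime.nmin {m n : α → ℕ} (hm : PTime m) (hn : PTime n) :
    PTime fun a => min (m a) (n a) :=
  (PTime.ite (PTime.le hm hn) hm hn).congr fun a => by
    by_cases h : m a ≤ n a
    · simp [h]
    · simp [h, (not_le.1 h).le]

theorem PTime.nmax {m n : α → ℕ} (hm : PTime m) (hn : PTime n) :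
    PTime fun a => max (m a) (n a) :=
  (PTime.ite (PTime.le hm hn) hn hm).congr fun a => by
    by_cases h : m a ≤ n a
    · simp [h]
    · simp [h, (not_le.1 h).le]

/-! ### Options -/

theorem PTime.oelim' {o : α → Option β} {n : α → γ} {s : α → β → γ} (ho : PTime o)
    (hn : PTime n) (hs : PTime fun x : α × β => s x.1 x.2) :
    PTime fun a => (match o a with
      | none => n a
      | some b => s a b) :=
  (PTime.oelim ho hn hs).congr fun a => by cases o a <;> rfl

theorem PTime.omap {o : α → Option β} {g : α → β → γ} (ho : PTime o)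
    (hg : PTime fun x : α × β => g x.1 x.2) : PTime fun a => (o a).map (g a) :=
  (PTime.oelim ho PTime.onone (PTime.osome hg) (s := fun a b => some (g a b))).congr fun a => by
    cases o a <;> rfl

theorem PTime.obind {o : α → Option β} {g : α → β → Option γ} (ho : PTime o)
    (hg : PTime fun x : α × β => g x.1 x.2) : PTime fun a => (o a).bind (g a) :=
  (PTime.oelim ho PTime.onone hg).congr fun a => by cases o a <;> rfl

theorem PTime.otoList {o : α → Option β} (ho : PTime o) : PTime fun a => (o a).toList :=
  (PTime.oelim (s := fun _ b => [b]) ho PTime.nil' (PTime.cons' PTime.snd PTime.nil')).congr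
    fun a => by cases o a <;> rfl

/-! ### Membership and duplicates -/

theorem PTime.lmem {x : α → β} {l : α → List β} {i : ∀ a, Decidable (x a ∈ l a)} (hx : PTime x)
    (hl : PTime l) : PTime fun a => decide (x a ∈ l a) := by
  classical
  refine (PTime.lcontains hx hl).congr fun a => ?_
  rw [Bool.eq_iff_iff, List.contains_iff_mem, decide_eq_true_iff]

theorem PTime.lnodup {l : α → List β} {i : ∀ a, Decidable (l a).Nodup} (hl : PTime l) :
    PTime fun a => decide (l a).Nodup := by
  classical
  obtain ⟨r, hr⟩ := hl.csz_le
  have h := PTime.foldlOf (σ := Bool × List β) (init := fun _ => (true, []))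
    (step := fun _ s b => (s.1 && !decide (b ∈ s.2), b :: s.2))
    hl (PTime.const _) ((PTime.and (PTime.fst.comp (PTime.fst.comp PTime.snd))
      (PTime.not (PTime.lmem (PTime.snd.comp PTime.snd)
        (PTime.snd.comp (PTime.fst.comp PTime.snd))))).pair
      (PTime.cons' (PTime.snd.comp PTime.snd) (PTime.snd.comp (PTime.fst.comp PTime.snd))))
    (fun _ p => (decide p.Nodup, p.reverse)) ?_ ?_ (4 + r) ?_
  · exact (PTime.fst.comp h).congr fun a => decide_eq_decide.2 Iff.rfl
  · intro a; simp
  · intro a p b
    by_cases h1 : p.Nodup
    · by_cases h2 : b ∈ p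
      · simp [h1, h2, List.nodup_append]
      · have h3 : ∀ c ∈ p, ¬ c = b := fun c hc hcb => h2 (hcb ▸ hc)
        simp [h1, h2, List.nodup_append]
        exact fun c hc hcb => h2 (hcb ▸ hc)
    · simp [h1, List.nodup_append]
  · intro a p hp
    rw [csz_pair, csz_bool, csz_reverse]
    have h1 := hr a
    have h5 := csz_sublist hp.sublist
    simp only [Polynomial.eval_add, Polynomial.eval_ofNat]
    omega

/-! ### More list functions -/

theorem PTime.lflatMap {l : α → List β} {g : α → β → List γ} (hl : PTime l)
    (hg : PTime fun x : α × β => g x.1 x.2) : PTime fun a => (l a).flatMap (g a) :=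
  (PTime.lflatten (PTime.lmap hl hg)).congr fun a => by rw [List.flatMap_def]

theorem PTime.lfilterMap {l : α → List β} {g : α → β → Option γ} (hl : PTime l)
    (hg : PTime fun x : α × β => g x.1 x.2) : PTime fun a => (l a).filterMap (g a) :=
  (PTime.lflatMap (g := fun a b => (g a b).toList) hl (PTime.otoList hg)).congr fun a => by
    induction l a with
    | nil => rfl
    | cons b l ih =>
      rw [List.flatMap_cons, ih, List.filterMap_cons]
      cases g a b <;> rfl

/-- filter with a proposition -/
theorem PTime.lfilterD {l : α → List β} {p : α → β → Prop} {i : ∀ a b, Decidable (p a b)}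
    (hl : PTime l) (hp : PTime fun x : α × β => decide (p x.1 x.2)) :
    PTime fun a => (l a).filter (fun b => decide (p a b)) :=
  PTime.lfilter (p := fun a b => decide (p a b)) hl hp

theorem PTime.lcount [BEq β] [LawfulBEq β] {x : α → β} {l : α → List β} (hx : PTime x)
    (hl : PTime l) : PTime fun a => (l a).count (x a) :=
  (PTime.llength (PTime.lfilter (p := fun a b => b == x a) hl
    (PTime.beq PTime.snd (hx.comp PTime.fst)))).congr fun a => by
      rw [List.count, List.countP_eq_length_filter]

theorem PTime.llookup [BEq β] [LawfulBEq β] {x : α → β} {l : α → List (β × γ)} (hx : PTime x)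
    (hl : PTime l) : PTime fun a => (l a).lookup (x a) :=
  (PTime.omap (g := fun _ y => y.2) (PTime.lfind? (p := fun a y => x a == y.1) hl
    (PTime.beq (hx.comp PTime.fst) (PTime.fst.comp PTime.snd))) (PTime.snd.comp PTime.snd)).congr
    fun a => by
      induction l a with
      | nil => rfl
      | cons y l ih =>
        obtain ⟨b, c⟩ := y
        rw [List.find?_cons, List.lookup_cons]
        cases x a == b
        · exact ih
        · rfl

theorem PTime.lzipWith {f : α → List β} {g : α → List γ} {k : α → β → γ → δ} (hf : PTime f)
    (hg : PTime g) (hk : PTime fun x : α × β × γ => k x.1 x.2.1 x.2.2) :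
    PTime fun a => List.zipWith (k a) (f a) (g a) :=
  (PTime.lmap (g := fun a y => k a y.1 y.2) (PTime.lzip hf hg) hk).congr fun a => by
    rw [← List.map_uncurry_zip_eq_zipWith]
    rfl

theorem PTime.lzipIdx {l : α → List β} (hl : PTime l) : PTime fun a => (l a).zipIdx := by
  obtain ⟨r, hr⟩ := hl.csz_le
  refine (PTime.lzip hl (PTime.lrange (PTime.llength hl) r fun a =>
    (length_le_csz (l a)).trans (hr a))).congr fun a => ?_
  rw [List.zipIdx_eq_zip_range', List.range_eq_range']

theorem PTime.lfindIdx {l : α → List β} {p : α → β → Bool} (hl : PTime l)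
    (hp : PTime fun x : α × β => p x.1 x.2) : PTime fun a => (l a).findIdx (p a) :=
  (PTime.lidxOf (PTime.const true) (PTime.lmap hl hp)).congr fun a => by
    induction l a with
    | nil => rfl
    | cons b l ih =>
      rw [List.map_cons, List.idxOf_cons, List.findIdx_cons, ih]
      cases p a b <;> rfl

/-- folds from the right; the state after every suffix is known -/
theorem PTime.foldrOf {l : α → List β} {init : α → σ} {step : α → β → σ → σ}
    (hl : PTime l) (hi : PTime init) (hs : PTime fun x : α × β × σ => step x.1 x.2.1 x.2.2)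
    (q : Polynomial ℕ)
    (hq : ∀ a p, p <:+ l a → csz (p.foldr (step a) (init a)) ≤ q.eval (csz a)) :
    PTime (fun a => (l a).foldr (step a) (init a)) := by
  have h := PTime.foldlOf (l := fun a => (l a).reverse) (init := init)
    (step := fun a s b => step a b s)
    (PTime.lreverse hl) hi
    (hs.comp (PTime.fst.pair ((PTime.snd.comp PTime.snd).pair (PTime.fst.comp PTime.snd))))
    (fun a p => p.reverse.foldr (step a) (init a)) (fun a => rfl) (fun a p b => by
      rw [List.reverse_append, List.reverse_singleton, List.singleton_append, List.foldr_cons])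
    q (fun a p hp => hq a _ (by
      rw [← List.reverse_reverse (l a)]
      exact List.reverse_suffix.2 hp))
  exact h.congr fun a => by rw [List.reverse_reverse]

omit [Code α] [Code β] [Code σ] in
theorem foldl_invariant {l : List β} {s₀ : σ} {f : σ → β → σ} (P : σ → Prop) (h0 : P s₀)
    (h1 : ∀ s, ∀ b ∈ l, P s → P (f s b)) : P (l.foldl f s₀) := by
  induction l generalizing s₀ with
  | nil => exact h0
  | cons b l ih =>
    exact ih (h1 _ b List.mem_cons_self h0) fun s c hc => h1 s c (List.mem_cons_of_mem _ hc)

/-- folds with an invariant that bounds the size -/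
theorem PTime.foldlInv {l : α → List β} {init : α → σ} {step : α → σ → β → σ}
    (hl : PTime l) (hi : PTime init) (hs : PTime fun x : α × σ × β => step x.1 x.2.1 x.2.2)
    (P : α → σ → Prop) (q : Polynomial ℕ) (h0 : ∀ a, P a (init a))
    (h1 : ∀ a s, ∀ b ∈ l a, P a s → P a (step a s b))
    (hq : ∀ a s, P a s → csz s ≤ q.eval (csz a)) :
    PTime (fun a => (l a).foldl (step a) (init a)) :=
  PTime.foldl' hl hi hs q fun a i _ => hq a _
    (foldl_invariant (P a) (h0 a) fun s b hb => h1 a s b (List.mem_of_mem_take hb))

/-- folds whose state grows by a polynomially bounded amount in every step -/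
theorem PTime.foldlGrow {l : α → List β} {init : α → σ} {step : α → σ → β → σ}
    (hl : PTime l) (hi : PTime init) (hs : PTime fun x : α × σ × β => step x.1 x.2.1 x.2.2)
    (q : Polynomial ℕ) (hq : ∀ a s b, b ∈ l a → csz (step a s b) ≤ csz s + q.eval (csz a)) :
    PTime (fun a => (l a).foldl (step a) (init a)) := by
  obtain ⟨r, hr⟩ := hl.csz_le
  obtain ⟨t, ht⟩ := hi.csz_le
  refine PTime.foldl' hl hi hs (t + r * q) fun a i hi' => ?_
  have key : ∀ (m : List β), (∀ b ∈ m, b ∈ l a) → ∀ s : σ,
      csz (m.foldl (step a) s) ≤ csz s + m.length * q.eval (csz a) := by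
    intro m
    induction m with
    | nil => intro _ s; simp
    | cons b m ih =>
      intro hm s
      rw [List.foldl_cons, List.length_cons, Nat.add_mul, one_mul]
      have h1 := ih (fun c hc => hm c (List.mem_cons_of_mem _ hc)) (step a s b)
      have h2 := hq a s b (hm b List.mem_cons_self)
      omega
  have h1 := key ((l a).take i) (fun b hb => List.mem_of_mem_take hb) (init a)
  have h2 : ((l a).take i).length ≤ r.eval (csz a) := by
    rw [List.length_take]
    have := length_le_csz (l a)
    have := hr a
    omega
  have h3 := Nat.mul_le_mul_right (q.eval (csz a)) h2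
  have h4 := ht a
  rw [Polynomial.eval_add, Polynomial.eval_mul]
  omega

end

end Vale.Agent.P337
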