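import Vale.Agent.P333.M.Open
import Vale.Agent.P333.PT.ListP

/-!
P333: the programs of `M/Open.lean` run in polynomial time.
-/

namespace Vale.Agent.P333.PT

open Vale.Agent.P337 Vale.Agent.P333 Vale.Agent.P333.Open

/-! ### Sizes -/

section Size

variable {β : Type} [Code β]

theorem codeL_len_open (l : List β) :
    (codeL l).length = (l.map fun b => 2 * (Code.code b).length + 2).sum := by
  induction l with
  | nil => rfl
  | cons b l ih => rw [codeL, length_pairL, ih, List.map_cons, List.sum_cons]

theorem codeL_append (l l' : List β) :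
    (codeL (l ++ l')).length = (codeL l).length + (codeL l').length := by
  rw [codeL_len_open, codeL_len_open, codeL_len_open, List.map_append, List.sum_append]

theorem codeL_drop_le (l : List β) (n : ℕ) : (codeL (l.drop n)).length ≤ (codeL l).length := by
  conv_rhs => rw [← List.take_append_drop n l]
  rw [codeL_append]
  omega

theorem codeL_mem_le {l : List β} {b : β} (h : b ∈ l) :
    (Code.code b).length ≤ (codeL l).length := by
  rw [codeL_len_open]
  have h1 : 2 * (Code.code b).length + 2 ∈ l.map fun b => 2 * (Code.code b).length + 2 :=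
    List.mem_map.2 ⟨b, h, rfl⟩
  have h2 := List.single_le_sum (fun _ _ => Nat.zero_le _) _ h1
  omega

theorem codeL_le (l : List β) (B : ℕ) (h : ∀ b ∈ l, (Code.code b).length ≤ B) :
    (codeL l).length ≤ l.length * (2 * B + 2) := by
  induction l with
  | nil => simp [codeL]
  | cons b l ih =>
    have h1 := ih fun b hb => h b (List.mem_cons_of_mem _ hb)
    have h2 := h b (by simp)
    rw [codeL, length_pairL, List.length_cons]
    nlinarith

theorem code_listNat (l : List ℕ) : Code.code l = codeL l := rfl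

end Size

/-! ### Programs as iterations -/

theorem orb_iter (p : ℕ → ℕ) (k : ℕ) : ∀ (i : ℕ) (acc : List ℕ),
    (fun s : List ℕ × ℕ => (s.1 ++ [s.2], p s.2))^[k] (acc, i) = (acc ++ orb p k i, p^[k] i) := by
  induction k with
  | zero => intro i acc; simp [orb]
  | succ k ih =>
    intro i acc
    rw [Function.iterate_succ_apply, ih, orb, Function.iterate_succ_apply]
    simp

/-- one step of `walkTo` -/
def walkStep (p : ℕ → ℕ) (c : ℕ) (s : List ℕ × Bool × ℕ) : List ℕ × Bool × ℕ :=
  if s.2.1 then s else (s.1 ++ [s.2.2], decide (s.2.2 = c), p s.2.2)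

theorem walkStep_true (p : ℕ → ℕ) (c k : ℕ) (acc : List ℕ) (i : ℕ) :
    (walkStep p c)^[k] (acc, true, i) = (acc, true, i) :=
  Function.iterate_fixed (by simp [walkStep]) k

theorem walk_iter (p : ℕ → ℕ) (c k : ℕ) : ∀ (i : ℕ) (acc : List ℕ),
    ((walkStep p c)^[k] (acc, false, i)).1 = acc ++ walkTo p c k i := by
  induction k with
  | zero => intro i acc; simp [walkTo]
  | succ k ih =>
    intro i acc
    rw [Function.iterate_succ_apply, walkTo]
    by_cases h : i = c
    · have e : walkStep p c (acc, false, i) = (acc ++ [i], true, p i) := by simp [walkStep, h]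
      rw [e, walkStep_true, if_pos h]
    · have e : walkStep p c (acc, false, i) = (acc ++ [i], false, p i) := by simp [walkStep, h]
      rw [e, ih, if_neg h]
      simp

theorem mergeFrom_fold {β : Type} (s : ℕ → List β) (o : ℕ → ℕ → ℕ) (l : List ℕ) :
    ∀ (acc : List β) (i : ℕ), mergeFrom s o acc i l =
      (l.foldl (fun (st : List β × ℕ) j => (st.1 ++ (s j).drop (o st.2 j), j)) (acc, i)).1 := by
  induction l with
  | nil => intro acc i; rfl
  | cons j l ih => intro acc i; rw [mergeFrom, ih, List.foldl_cons]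

/-! ### Polynomial time -/

section Main

variable {α : Type} [Code α]

theorem orb_inv (p : ℕ → ℕ) (B : ℕ) (hp : ∀ x, (Code.code (p x)).length ≤ B) (i : ℕ)
    (hi : (Code.code i).length ≤ B) (k : ℕ) :
    ((fun s : List ℕ × ℕ => (s.1 ++ [s.2], p s.2))^[k] ([], i)).1.length ≤ k ∧
    (∀ b ∈ ((fun s : List ℕ × ℕ => (s.1 ++ [s.2], p s.2))^[k] ([], i)).1,
      (Code.code b).length ≤ B) ∧
    (Code.code ((fun s : List ℕ × ℕ => (s.1 ++ [s.2], p s.2))^[k] ([], i)).2).length ≤ B := by
  induction k with
  | zero => simpa using hi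
  | succ k ih =>
    rw [Function.iterate_succ_apply']
    obtain ⟨h1, h2, h3⟩ := ih
    refine ⟨?_, ?_, ?_⟩
    · simp only [List.length_append, List.length_singleton]; omega
    · intro b hb
      rcases List.mem_append.1 hb with hb | hb
      · exact h2 b hb
      · rw [List.mem_singleton.1 hb]; exact h3
    · exact hp _

theorem walk_inv (p : ℕ → ℕ) (c B : ℕ) (hp : ∀ x, (Code.code (p x)).length ≤ B) (i : ℕ)
    (hi : (Code.code i).length ≤ B) (k : ℕ) :
    ((walkStep p c)^[k] ([], false, i)).1.length ≤ k ∧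
    (∀ b ∈ ((walkStep p c)^[k] ([], false, i)).1, (Code.code b).length ≤ B) ∧
    (Code.code ((walkStep p c)^[k] ([], false, i)).2.2).length ≤ B := by
  induction k with
  | zero => simpa using hi
  | succ k ih =>
    rw [Function.iterate_succ_apply']
    obtain ⟨h1, h2, h3⟩ := ih
    unfold walkStep
    split_ifs
    · exact ⟨h1.trans (Nat.le_succ k), h2, h3⟩
    · refine ⟨?_, ?_, ?_⟩
      · simp only [List.length_append, List.length_singleton]
        unfold walkStep at h1
        omega
      · intro b hb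
        rcases List.mem_append.1 hb with hb | hb
        · exact h2 b hb
        · rw [List.mem_singleton.1 hb]; exact h3
      · exact hp _

/-- the orbit of `i` -/
theorem orbP {n i : α → ℕ} {p : α → ℕ → ℕ} (hn : PTime n) (qn : Polynomial ℕ)
    (hqn : ∀ a, n a ≤ qn.eval (Code.code a).length) (hi : PTime i)
    (hp : PTime fun x : α × ℕ => p x.1 x.2) (qp : Polynomial ℕ)
    (hqp : ∀ a x, (Code.code (p a x)).length ≤ qp.eval (Code.code a).length) :
    PTime fun a => orb (p a) (n a) (i a) := by
  obtain ⟨qi, hqi⟩ := hi.length_le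
  have hstep : PTime fun x : α × (List ℕ × ℕ) => (x.2.1 ++ [x.2.2], p x.1 x.2.2) := by
    refine PTime.pair ?_ ?_
    · exact PTime.lappend (PTime.fst.comp PTime.snd)
        (PTime.cons' (PTime.snd.comp PTime.snd) (PTime.const []))
    · exact PTime.comp (g := fun x : α × ℕ => p x.1 x.2) hp
        (PTime.fst.pair (PTime.snd.comp PTime.snd))
  have h := PTime.iter (step := fun x : α × (List ℕ × ℕ) => (x.2.1 ++ [x.2.2], p x.1 x.2.2))
    (init := fun a => (([] : List ℕ), i a)) (PTime.unaryN hn qn hqn) ((PTime.const []).pair hi) hstep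
    (2 * (qn * (2 * (qi + qp) + 2)) + 2 + (qi + qp)) (fun a k hk => by
      rw [List.length_replicate] at hk
      obtain ⟨h1, h2, h3⟩ := orb_inv (p a) (qi.eval (Code.code a).length
        + qp.eval (Code.code a).length) (fun x => (hqp a x).trans (Nat.le_add_left _ _)) (i a)
        ((hqi a).trans (Nat.le_add_right _ _)) k
      have h4 := codeL_le _ _ h2
      have h5 := hqn a
      have h6 := Nat.mul_le_mul_right (2 * (qi.eval (Code.code a).length
        + qp.eval (Code.code a).length) + 2) (h1.trans (hk.trans h5))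
      have h7 := h4.trans h6
      simp only [Polynomial.eval_add, Polynomial.eval_mul, Polynomial.eval_ofNat]
      change (pairL (codeL _) (Code.code _)).length ≤ _
      rw [length_pairL]
      omega)
  refine (PTime.fst.comp h).congr fun a => ?_
  rw [List.length_replicate]
  have := orb_iter (p a) (n a) (i a) []
  simp only at this ⊢
  rw [this]
  simp

/-- walking along the cycle -/
theorem walkToP {n i c : α → ℕ} {p : α → ℕ → ℕ} (hn : PTime n) (qn : Polynomial ℕ)
    (hqn : ∀ a, n a ≤ qn.eval (Code.code a).length) (hi : PTime i) (hc : PTime c)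
    (hp : PTime fun x : α × ℕ => p x.1 x.2) (qp : Polynomial ℕ)
    (hqp : ∀ a x, (Code.code (p a x)).length ≤ qp.eval (Code.code a).length) :
    PTime fun a => walkTo (p a) (c a) (n a) (i a) := by
  obtain ⟨qi, hqi⟩ := hi.length_le
  have hstep : PTime fun x : α × (List ℕ × Bool × ℕ) => walkStep (p x.1) (c x.1) x.2 := by
    refine PTime.ite (PTime.fst.comp (PTime.snd.comp PTime.snd)) PTime.snd ?_
    refine PTime.pair ?_ (PTime.pair ?_ ?_)
    · exact PTime.lappend (PTime.fst.comp PTime.snd)
        (PTime.cons' (PTime.snd.comp (PTime.snd.comp PTime.snd)) (PTime.const []))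
    · exact PTime.eq (PTime.snd.comp (PTime.snd.comp PTime.snd)) (hc.comp PTime.fst)
    · exact PTime.comp (g := fun x : α × ℕ => p x.1 x.2) hp
        (PTime.fst.pair (PTime.snd.comp (PTime.snd.comp PTime.snd)))
  have h := PTime.iter (step := fun x : α × (List ℕ × Bool × ℕ) => walkStep (p x.1) (c x.1) x.2)
    (init := fun a => (([] : List ℕ), false, i a)) (PTime.unaryN hn qn hqn)
    ((PTime.const []).pair ((PTime.const false).pair hi)) hstep
    (2 * (qn * (2 * (qi + qp) + 2)) + 2 + (4 + (qi + qp))) (fun a k hk => by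
      rw [List.length_replicate] at hk
      obtain ⟨h1, h2, h3⟩ := walk_inv (p a) (c a) (qi.eval (Code.code a).length
        + qp.eval (Code.code a).length) (fun x => (hqp a x).trans (Nat.le_add_left _ _)) (i a)
        ((hqi a).trans (Nat.le_add_right _ _)) k
      have h4 := codeL_le _ _ h2
      have h5 := hqn a
      have h6 := Nat.mul_le_mul_right (2 * (qi.eval (Code.code a).length
        + qp.eval (Code.code a).length) + 2) (h1.trans (hk.trans h5))
      have h7 := h4.trans h6
      simp only [Polynomial.eval_add, Polynomial.eval_mul, Polynomial.eval_ofNat]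
      change (pairL (codeL _) (pairL [_] (Code.code _))).length ≤ _
      rw [length_pairL, length_pairL]
      simp only [List.length_singleton]
      change _ ≤ _ at h3
      change 2 * (codeL ((walkStep (p a) (c a))^[k] ([], false, i a)).1).length + 2
        + (2 * 1 + 2 + (Code.code ((walkStep (p a) (c a))^[k] ([], false, i a)).2.2).length) ≤ _
      omega)
  refine (PTime.fst.comp h).congr fun a => ?_
  rw [List.length_replicate]
  have := walk_iter (p a) (c a) (n a) (i a) []
  simp only [List.nil_append] at this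
  exact this

/-- bounds are kept when the context grows -/
theorem lift_le {γ : Type} [Code γ] (q : Polynomial ℕ) (x : α × γ) :
    q.eval (Code.code x.1).length ≤ q.eval (Code.code x).length := by
  refine eval_le_eval q ?_
  change _ ≤ (pairL (Code.code x.1) (Code.code x.2)).length
  rw [length_pairL]
  omega

/-- the cycle of `c` -/
theorem cycFromP {n c : α → ℕ} {p : α → ℕ → ℕ} (hn : PTime n) (qn : Polynomial ℕ)
    (hqn : ∀ a, n a ≤ qn.eval (Code.code a).length) (hc : PTime c)
    (hp : PTime fun x : α × ℕ => p x.1 x.2) (qp : Polynomial ℕ)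
    (hqp : ∀ a x, (Code.code (p a x)).length ≤ qp.eval (Code.code a).length) :
    PTime fun a => cycFrom (n a) (p a) (c a) :=
  walkToP hn qn hqn (PTime.comp (g := fun x : α × ℕ => p x.1 x.2) hp (PTime.id.pair hc)) hc hp
    qp hqp

/-- the test for the last node of a cycle -/
theorem isLastP {n c : α → ℕ} {o : α → ℕ → ℕ → ℕ} {p : α → ℕ → ℕ} (hn : PTime n)
    (qn : Polynomial ℕ) (hqn : ∀ a, n a ≤ qn.eval (Code.code a).length) (hc : PTime c)
    (ho : PTime fun x : α × ℕ × ℕ => o x.1 x.2.1 x.2.2)
    (hp : PTime fun x : α × ℕ => p x.1 x.2) (qp : Polynomial ℕ)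
    (hqp : ∀ a x, (Code.code (p a x)).length ≤ qp.eval (Code.code a).length) :
    PTime fun a => isLast (n a) (o a) (p a) (c a) := by
  have hcx : PTime fun x : α × ℕ => c x.1 := hc.comp PTime.fst
  have h1 : PTime fun x : α × ℕ => o x.1 (c x.1) (p x.1 (c x.1)) :=
    PTime.comp (g := fun x : α × ℕ × ℕ => o x.1 x.2.1 x.2.2) ho
      (PTime.fst.pair (hcx.pair (PTime.comp (g := fun x : α × ℕ => p x.1 x.2) hp
        (PTime.fst.pair hcx))))
  have h2 : PTime fun x : α × ℕ => o x.1 x.2 (p x.1 x.2) :=
    PTime.comp (g := fun x : α × ℕ × ℕ => o x.1 x.2.1 x.2.2) ho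
      (PTime.fst.pair (PTime.snd.pair hp))
  exact PTime.lall (orbP hn qn hqn hc hp qp hqp)
    (PTime.or (PTime.lt h1 h2) (PTime.and (PTime.eq h1 h2) (PTime.le hcx PTime.snd)))

/-- the last nodes -/
theorem lastsP {n : α → ℕ} {o : α → ℕ → ℕ → ℕ} {p : α → ℕ → ℕ} (hn : PTime n)
    (qn : Polynomial ℕ) (hqn : ∀ a, n a ≤ qn.eval (Code.code a).length)
    (ho : PTime fun x : α × ℕ × ℕ => o x.1 x.2.1 x.2.2)
    (hp : PTime fun x : α × ℕ => p x.1 x.2) (qp : Polynomial ℕ)
    (hqp : ∀ a x, (Code.code (p a x)).length ≤ qp.eval (Code.code a).length) :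
    PTime fun a => lasts (n a) (o a) (p a) := by
  refine PTime.lfilter (PTime.lrange hn qn hqn) ?_
  refine isLastP (n := fun x : α × ℕ => n x.1) (c := fun x : α × ℕ => x.2)
    (o := fun x : α × ℕ => o x.1) (p := fun x : α × ℕ => p x.1) (hn.comp PTime.fst) qn
    (fun x => (hqn x.1).trans (lift_le qn x)) PTime.snd ?_ ?_ qp
    (fun x y => (hqp x.1 y).trans (lift_le qp x))
  · exact PTime.comp (g := fun x : α × ℕ × ℕ => o x.1 x.2.1 x.2.2) ho
      ((PTime.fst.comp PTime.fst).pair PTime.snd)
  · exact PTime.comp (g := fun x : α × ℕ => p x.1 x.2) hp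
      ((PTime.fst.comp PTime.fst).pair PTime.snd)

theorem merge_inv {β : Type} [Code β] (s : ℕ → List β) (o : ℕ → ℕ → ℕ) (Bs Bi : ℕ)
    (hs : ∀ j, (codeL (s j)).length ≤ Bs) (l : List ℕ) : ∀ (acc : List β) (i : ℕ),
    (Code.code i).length ≤ Bi → (∀ j ∈ l, (Code.code j).length ≤ Bi) →
    (codeL (l.foldl (fun (st : List β × ℕ) j => (st.1 ++ (s j).drop (o st.2 j), j))
      (acc, i)).1).length ≤ (codeL acc).length + l.length * Bs ∧
    (Code.code (l.foldl (fun (st : List β × ℕ) j => (st.1 ++ (s j).drop (o st.2 j), j))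
      (acc, i)).2).length ≤ Bi := by
  induction l with
  | nil => intro acc i hi _; simpa using hi
  | cons j l ih =>
    intro acc i hi hl
    obtain ⟨h1, h2⟩ := ih (acc ++ (s j).drop (o i j)) j (hl j (by simp))
      (fun x hx => hl x (List.mem_cons_of_mem _ hx))
    rw [List.foldl_cons]
    refine ⟨h1.trans ?_, h2⟩
    rw [codeL_append, List.length_cons]
    have h3 := (codeL_drop_le (s j) (o i j)).trans (hs j)
    nlinarith

theorem length_le_codeL {β : Type} [Code β] (l : List β) : l.length ≤ (codeL l).length := by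
  induction l with
  | nil => simp
  | cons b l ih =>
    rw [codeL, length_pairL, List.length_cons]
    omega

/-- merging a list of nodes into a word -/
theorem mergeFromP {s : α → ℕ → List ℕ} {o : α → ℕ → ℕ → ℕ} {acc : α → List ℕ} {i : α → ℕ}
    {l : α → List ℕ} (hs : PTime fun x : α × ℕ => s x.1 x.2)
    (ho : PTime fun x : α × ℕ × ℕ => o x.1 x.2.1 x.2.2) (hacc : PTime acc) (hi : PTime i)
    (hl : PTime l) (qs : Polynomial ℕ)
    (hqs : ∀ a x, (Code.code (s a x)).length ≤ qs.eval (Code.code a).length) :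
    PTime fun a => mergeFrom (s a) (o a) (acc a) (i a) (l a) := by
  obtain ⟨qa, hqa⟩ := hacc.length_le
  obtain ⟨qi, hqi⟩ := hi.length_le
  obtain ⟨ql, hql⟩ := hl.length_le
  have hj : PTime fun x : α × (List ℕ × ℕ) × ℕ => x.2.2 := PTime.snd.comp PTime.snd
  have hstep : PTime fun x : α × (List ℕ × ℕ) × ℕ =>
      (x.2.1.1 ++ (s x.1 x.2.2).drop (o x.1 x.2.1.2 x.2.2), x.2.2) := by
    refine PTime.pair (PTime.lappend (PTime.fst.comp (PTime.fst.comp PTime.snd))
      (PTime.ldropN ?_ ?_)) hj
    · exact PTime.comp (g := fun x : α × ℕ => s x.1 x.2) hs (PTime.fst.pair hj)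
    · exact PTime.comp (g := fun x : α × ℕ × ℕ => o x.1 x.2.1 x.2.2) ho
        (PTime.fst.pair ((PTime.snd.comp (PTime.fst.comp PTime.snd)).pair hj))
  have h := PTime.foldl (init := fun a => (acc a, i a)) hl (hacc.pair hi) hstep
    (2 * (qa + ql * qs) + 2 + (qi + ql)) (fun a k hk => by
      have hmem : ∀ j ∈ (l a).take k, (Code.code j).length ≤ qi.eval (Code.code a).length
          + ql.eval (Code.code a).length := fun j hj =>
        ((codeL_mem_le (List.mem_of_mem_take hj)).trans (hql a)).trans (Nat.le_add_left _ _)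
      obtain ⟨h1, h2⟩ := merge_inv (s a) (o a) (qs.eval (Code.code a).length) _ (hqs a)
        ((l a).take k) (acc a) (i a) ((hqi a).trans (Nat.le_add_right _ _)) hmem
      have h3 : ((l a).take k).length ≤ ql.eval (Code.code a).length :=
        (((List.length_take_le k _).trans hk).trans (length_le_codeL _)).trans (hql a)
      have h4 := Nat.mul_le_mul_right (qs.eval (Code.code a).length) h3
      have h5 := hqa a
      simp only [csz_def, Polynomial.eval_add, Polynomial.eval_mul, Polynomial.eval_ofNat]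
      change (pairL (codeL _) (Code.code _)).length ≤ _
      rw [length_pairL]
      change (codeL (acc a)).length ≤ _ at h5
      omega)
  exact (PTime.fst.comp h).congr fun a =>
    (mergeFrom_fold (s a) (o a) (l a) (acc a) (i a)).symm

/-- merging a list of nodes -/
theorem mergeP {s : α → ℕ → List ℕ} {o : α → ℕ → ℕ → ℕ} {l : α → List ℕ}
    (hs : PTime fun x : α × ℕ => s x.1 x.2) (ho : PTime fun x : α × ℕ × ℕ => o x.1 x.2.1 x.2.2)
    (hl : PTime l) (qs : Polynomial ℕ)
    (hqs : ∀ a x, (Code.code (s a x)).length ≤ qs.eval (Code.code a).length) :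
    PTime fun a => merge (s a) (o a) (l a) := by
  have hh : PTime fun a => (l a).headD 0 := PTime.headD' (PTime.const 0) hl
  have h := PTime.ite (PTime.isEmpty' hl) (PTime.const ([] : List ℕ))
    (mergeFromP hs ho (PTime.comp (g := fun x : α × ℕ => s x.1 x.2) hs (PTime.id.pair hh)) hh
      (PTime.tail' hl) qs hqs)
  refine h.congr fun a => ?_
  rcases l a with _ | ⟨i, l⟩
  · rfl
  · rfl

/-- the opened cycles -/
theorem openedP {n : α → ℕ} {s : α → ℕ → List ℕ} {o : α → ℕ → ℕ → ℕ} {p : α → ℕ → ℕ}
    (hn : PTime n) (qn : Polynomial ℕ) (hqn : ∀ a, n a ≤ qn.eval (Code.code a).length)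
    (hs : PTime fun x : α × ℕ => s x.1 x.2) (qs : Polynomial ℕ)
    (hqs : ∀ a x, (Code.code (s a x)).length ≤ qs.eval (Code.code a).length)
    (ho : PTime fun x : α × ℕ × ℕ => o x.1 x.2.1 x.2.2)
    (hp : PTime fun x : α × ℕ => p x.1 x.2) (qp : Polynomial ℕ)
    (hqp : ∀ a x, (Code.code (p a x)).length ≤ qp.eval (Code.code a).length) :
    PTime fun a => opened (n a) (s a) (o a) (p a) := by
  refine PTime.lmap (lastsP hn qn hqn ho hp qp hqp) ?_
  refine mergeP (s := fun x : α × ℕ => s x.1) (o := fun x : α × ℕ => o x.1)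
    (l := fun x : α × ℕ => cycFrom (n x.1) (p x.1) x.2) ?_ ?_ ?_ qs
    (fun x y => (hqs x.1 y).trans (lift_le qs x))
  · exact PTime.comp (g := fun x : α × ℕ => s x.1 x.2) hs
      ((PTime.fst.comp PTime.fst).pair PTime.snd)
  · exact PTime.comp (g := fun x : α × ℕ × ℕ => o x.1 x.2.1 x.2.2) ho
      ((PTime.fst.comp PTime.fst).pair PTime.snd)
  · refine cycFromP (n := fun x : α × ℕ => n x.1) (c := fun x : α × ℕ => x.2)
      (p := fun x : α × ℕ => p x.1) (hn.comp PTime.fst) qn
      (fun x => (hqn x.1).trans (lift_le qn x)) PTime.snd ?_ qp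
      (fun x y => (hqp x.1 y).trans (lift_le qp x))
    exact PTime.comp (g := fun x : α × ℕ => p x.1 x.2) hp
      ((PTime.fst.comp PTime.fst).pair PTime.snd)

end Main

end Vale.Agent.P333.PT
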