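import Vale.Agent.P333.PT.ListP
import Vale.Agent.P333.M.Prog

/-!
# P333: the functions of box M are polynomial time
-/

namespace Vale.Agent.P333.PT.ProgAux

open Vale.Agent.P337

variable {α β γ σ : Type} [Code α] [Code β] [Code γ] [Code σ]

/-- numbers that are bounded by a polynomial in the size of the input -/
def PB (n : α → ℕ) : Prop := ∃ q : Polynomial ℕ, ∀ a, n a ≤ q.eval (Code.code a).length

theorem eval_mono (q : Polynomial ℕ) {m n : ℕ} (h : m ≤ n) : q.eval m ≤ q.eval n := by
  rw [Polynomial.eval_eq_sum, Polynomial.eval_eq_sum]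
  unfold Polynomial.sum
  exact Finset.sum_le_sum fun i _ => Nat.mul_le_mul_left _ (Nat.pow_le_pow_left h i)

theorem PB.comp {n : β → ℕ} {f : α → β} (hn : PB n) (hf : PTime f) : PB fun a => n (f a) := by
  obtain ⟨q, hq⟩ := hn
  obtain ⟨r, hr⟩ := hf.length_le
  refine ⟨q.comp r, fun a => ?_⟩
  rw [Polynomial.eval_comp]
  exact (hq (f a)).trans (eval_mono q (hr a))

theorem PB.size {f : α → β} (hf : PTime f) : PB fun a => (Code.code (f a)).length := hf.length_le

theorem PB.add {m n : α → ℕ} (hm : PB m) (hn : PB n) : PB fun a => m a + n a := by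
  obtain ⟨q, hq⟩ := hm
  obtain ⟨r, hr⟩ := hn
  exact ⟨q + r, fun a => by rw [Polynomial.eval_add]; exact add_le_add (hq a) (hr a)⟩

theorem PB.mul {m n : α → ℕ} (hm : PB m) (hn : PB n) : PB fun a => m a * n a := by
  obtain ⟨q, hq⟩ := hm
  obtain ⟨r, hr⟩ := hn
  exact ⟨q * r, fun a => by rw [Polynomial.eval_mul]; exact Nat.mul_le_mul (hq a) (hr a)⟩

theorem PB.const (k : ℕ) : PB fun _ : α => k := ⟨Polynomial.C k, fun a => by simp⟩

theorem PB.mono {m n : α → ℕ} (hn : PB n) (h : ∀ a, m a ≤ n a) : PB m := by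
  obtain ⟨q, hq⟩ := hn
  exact ⟨q, fun a => (h a).trans (hq a)⟩

omit [Code σ] in
theorem foldl_inv {ρ : Type} (P : σ → Prop) (step : σ → ρ → σ) :
    ∀ (l : List ρ) (s : σ), P s → (∀ s b, b ∈ l → P s → P (step s b)) → P (l.foldl step s)
  | [], s, h0, _ => h0
  | b :: l, s, h0, h1 => by
    rw [List.foldl_cons]
    exact foldl_inv P step l _ (h1 s b List.mem_cons_self h0)
      fun s c hc hs => h1 s c (List.mem_cons_of_mem _ hc) hs

/-- folds, with the size bound given by an invariant -/
theorem foldInv {l : α → List β} {init : α → σ} {step : α × σ × β → σ}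
    (hl : PTime l) (hi : PTime init) (hs : PTime step) (P : α → σ → Prop) (B : α → ℕ)
    (hB : PB B) (h0 : ∀ a, P a (init a))
    (h1 : ∀ a s b, b ∈ l a → P a s → P a (step (a, s, b)))
    (hq : ∀ a s, P a s → (Code.code s).length ≤ B a) :
    PTime (fun a => (l a).foldl (fun s b => step (a, s, b)) (init a)) := by
  obtain ⟨q, hB⟩ := hB
  refine PTime.foldl hl hi hs q fun a i _ => (hq a _ ?_).trans (hB a)
  exact foldl_inv (P a) _ _ _ (h0 a)
    fun s b hb hs => h1 a s b (List.mem_of_mem_take hb) hs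

theorem iteP {c : α → Prop} [∀ a, Decidable (c a)] {f g : α → β}
    (hc : PTime fun a => decide (c a)) (hf : PTime f) (hg : PTime g) :
    PTime fun a => if c a then f a else g a :=
  (PTime.ite hc hf hg).congr fun a => by by_cases h : c a <;> simp [h]

theorem rangeP {n : α → ℕ} (hn : PTime n) (hb : PB n) : PTime fun a => List.range (n a) := by
  obtain ⟨q, hq⟩ := hb
  exact PTime.lrange hn q hq

theorem minP {m n : α → ℕ} (hm : PTime m) (hn : PTime n) : PTime fun a => min (m a) (n a) :=
  (PTime.ite (PTime.le hm hn) hm hn).congr fun a => by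
    by_cases h : m a ≤ n a
    · simp [h]
    · simp [h, (not_le.1 h).le]

theorem code_mem_le {ρ : Type} [Code ρ] {l : List ρ} {x : ρ} (h : x ∈ l) :
    2 * (Code.code x).length + 2 ≤ (codeL l).length := by
  induction l with
  | nil => cases h
  | cons a l ih =>
    rw [codeL, length_pairL]
    rcases List.mem_cons.1 h with rfl | h
    · omega
    · have := ih h
      omega

theorem code_getD_le (l : List ℕ) (i : ℕ) :
    (Code.code (l.getD i 0)).length ≤ (Code.code l).length := by
  by_cases h : i < l.length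
  · rw [List.getD_eq_getElem _ _ h]
    have := code_mem_le (List.getElem_mem h)
    change (Code.code (l[i])).length ≤ (codeL l).length
    omega
  · rw [List.getD_eq_default _ _ (not_lt.1 h)]
    simp [code_nat]

theorem code_list_le {ρ : Type} [Code ρ] (l : List ρ) (K : ℕ)
    (h : ∀ x ∈ l, (Code.code x).length ≤ K) :
    (codeL l).length ≤ l.length * (2 * K + 2) := by
  induction l with
  | nil => simp [codeL]
  | cons a l ih =>
    rw [codeL, length_pairL, List.length_cons]
    have h1 := h a List.mem_cons_self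
    have h2 := ih fun x hx => h x (List.mem_cons_of_mem _ hx)
    nlinarith

/-- one step of the search -/
def idxStep (x : ℕ) (s : Bool × ℕ) (b : ℕ) : Bool × ℕ :=
  if s.1 then s else if b = x then (true, s.2) else (false, s.2 + 1)

theorem idxStep_true (x : ℕ) : ∀ (l : List ℕ) (k : ℕ),
    l.foldl (idxStep x) (true, k) = (true, k)
  | [], k => rfl
  | b :: l, k => by
    rw [List.foldl_cons]
    exact idxStep_true x l k

theorem idxStep_false (x : ℕ) : ∀ (l : List ℕ) (k : ℕ),
    (l.foldl (idxStep x) (false, k)).2 = k + l.idxOf x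
  | [], k => by simp
  | b :: l, k => by
    rw [List.foldl_cons]
    by_cases h : b = x
    · have : idxStep x (false, k) b = (true, k) := by simp [idxStep, h]
      rw [this, idxStep_true, h, List.idxOf_cons_self]
      rfl
    · have : idxStep x (false, k) b = (false, k + 1) := by simp [idxStep, h]
      rw [this, idxStep_false x l, List.idxOf_cons_ne _ h]
      omega

theorem idxOfP {l : α → List ℕ} {x : α → ℕ} (hl : PTime l) (hx : PTime x) :
    PTime fun a => (l a).idxOf (x a) := by
  obtain ⟨r, hr⟩ := hl.csz_le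
  have hb : PTime fun t : α × (Bool × ℕ) × ℕ => t.2.1.1 :=
    PTime.fst.comp (PTime.fst.comp PTime.snd)
  have hk : PTime fun t : α × (Bool × ℕ) × ℕ => t.2.1.2 :=
    PTime.snd.comp (PTime.fst.comp PTime.snd)
  have h := PTime.foldl' (l := l) (init := fun _ : α => ((false, 0) : Bool × ℕ))
    (step := fun a => idxStep (x a)) hl (PTime.const _)
    (PTime.ite hb (PTime.fst.comp PTime.snd)
      (iteP (PTime.eq (PTime.snd.comp PTime.snd) (hx.comp PTime.fst))
        ((PTime.const true).pair hk)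
        ((PTime.const false).pair (PTime.add hk (PTime.const 1))))) (r + 4)
    (fun a i hi => by
      rw [csz_pair, csz_bool, idxStep_false, Polynomial.eval_add, Polynomial.eval_ofNat]
      have h1 := csz_nat_le (0 + ((l a).take i).idxOf (x a))
      have h2 : ((l a).take i).idxOf (x a) ≤ ((l a).take i).length := List.idxOf_le_length
      have h3 := length_le_csz (l a)
      have h4 := hr a
      rw [List.length_take] at h2
      omega)
  refine (PTime.snd.comp h).congr fun a => ?_
  rw [idxStep_false, Nat.zero_add]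

theorem code_pair_length {ρ τ : Type} [Code ρ] [Code τ] (x : ρ) (y : τ) :
    (Code.code (x, y)).length = 2 * (Code.code x).length + 2 + (Code.code y).length := by
  rw [code_pair, length_pairL]

theorem nxP {p : α → List ℕ} {x : α → ℕ} (hp : PTime p) (hx : PTime x) :
    PTime fun a => M.nx (p a) (x a) := PTime.lgetD hp hx (PTime.const 0)

theorem rep_aux {ρ : Type} (p : List ℕ) : ∀ (l : List ρ) (y m : ℕ),
    (M.orb p y l.length).foldl min m
      = (l.foldl (fun (s : ℕ × ℕ) _ => (min s.1 s.2, p.getD s.2 0)) (m, y)).1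
  | [], y, m => rfl
  | b :: l, y, m => by
    rw [List.length_cons, M.orb, List.foldl_cons, List.foldl_cons]
    exact rep_aux p l _ _

theorem repP {n : α → ℕ} {p : α → List ℕ} {x : α → ℕ} (hn : PTime n) (bn : PB n)
    (hp : PTime p) (hx : PTime x) : PTime fun a => M.rep (n a) (p a) (x a) := by
  have h := foldInv (l := fun a => List.range (n a)) (init := fun a => (x a, x a))
    (step := fun t : α × (ℕ × ℕ) × ℕ => (min t.2.1.1 t.2.1.2, (p t.1).getD t.2.1.2 0))
    (rangeP hn bn) (hx.pair hx)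
    ((minP (PTime.fst.comp (PTime.fst.comp PTime.snd))
      (PTime.snd.comp (PTime.fst.comp PTime.snd))).pair
      (PTime.lgetD (hp.comp PTime.fst) (PTime.snd.comp (PTime.fst.comp PTime.snd))
        (PTime.const 0)))
    (fun a s => (Code.code s.1).length ≤ (Code.code (x a)).length ∧
      (Code.code s.2).length ≤ (Code.code (x a)).length + (Code.code (p a)).length)
    (fun a => 2 * (Code.code (x a)).length + 2 +
      ((Code.code (x a)).length + (Code.code (p a)).length))
    ((((PB.const 2).mul (PB.size hx)).add (PB.const 2)).add ((PB.size hx).add (PB.size hp)))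
    (fun a => ⟨le_rfl, Nat.le_add_right _ _⟩)
    (fun a s b _ hs => ⟨(code_nat_mono (min_le_left _ _)).trans hs.1,
      (code_getD_le _ _).trans (Nat.le_add_left _ _)⟩)
    (fun a s hs => by
      obtain ⟨s1, s2⟩ := s
      rw [code_pair_length]
      have h1 := hs.1
      have h2 := hs.2
      simp only at h1 h2
      omega)
  refine (PTime.fst.comp h).congr fun a => ?_
  have := rep_aux (p a) (List.range (n a)) (x a) (x a)
  rw [List.length_range] at this
  exact this.symm

theorem kqP {n : α → ℕ} {p q : α → List ℕ} {x : α → ℕ} (hn : PTime n) (bn : PB n)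
    (hp : PTime p) (hq : PTime q) (hx : PTime x) :
    PTime fun a => M.kq (n a) (p a) (q a) (x a) := by
  unfold M.kq
  exact iteP (PTime.eq (nxP hp hx) hx) (PTime.const 0)
    (iteP (PTime.eq (repP hn bn hp hx) hx)
      (PTime.lgetD hq (repP hn bn hp hx) (PTime.const 0))
      (PTime.sub (PTime.const 2) (PTime.lgetD hq (repP hn bn hp hx) (PTime.const 0))))

/-- use of an oracle -/
theorem orac {w : α → ℕ → ℕ → ℕ} (hw : PTime fun x : α × ℕ × ℕ => w x.1 x.2.1 x.2.2)
    {i j : α → ℕ} (hi : PTime i) (hj : PTime j) : PTime fun a => w a (i a) (j a) :=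
  hw.comp (PTime.id.pair (hi.pair hj))

/-- change of the parameter of an oracle -/
theorem oracR {w : α → ℕ → ℕ → ℕ} (hw : PTime fun x : α × ℕ × ℕ => w x.1 x.2.1 x.2.2)
    {f : β → α} (hf : PTime f) : PTime fun x : β × ℕ × ℕ => w (f x.1) x.2.1 x.2.2 :=
  hw.comp ((hf.comp PTime.fst).pair PTime.snd)

theorem arcTermP {w : α → ℕ → ℕ → ℕ} (hw : PTime fun x : α × ℕ × ℕ => w x.1 x.2.1 x.2.2)
    {n : α → ℕ} {p q : α → List ℕ} {x : α → ℕ} (hn : PTime n) (bn : PB n)
    (hp : PTime p) (hq : PTime q) (hx : PTime x) :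
    PTime fun a => M.arcTerm (w a) (n a) (p a) (q a) (x a) := by
  unfold M.arcTerm
  exact PTime.mul (PTime.mul (PTime.const 4) (kqP hn bn hp hq hx)) (orac hw hx (nxP hp hx))

theorem linkTermP {w : α → ℕ → ℕ → ℕ} (hw : PTime fun x : α × ℕ × ℕ => w x.1 x.2.1 x.2.2)
    {n : α → ℕ} {p p2 q : α → List ℕ} {x : α → ℕ} (hn : PTime n) (bn : PB n)
    (hp : PTime p) (hp2 : PTime p2) (hq : PTime q) (hx : PTime x) :
    PTime fun a => M.linkTerm (w a) (n a) (p a) (p2 a) (q a) (x a) := by
  unfold M.linkTerm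
  exact iteP (PTime.eq (repP hn bn hp hx) (repP hn bn hp (nxP hp2 hx))) (PTime.const 0)
    (PTime.mul (PTime.mul (PTime.sub (PTime.const 2) (kqP hn bn hp hq hx))
      (PTime.sub (PTime.const 2) (kqP hn bn hp hq (idxOfP hp (nxP hp2 hx)))))
      (orac hw hx (nxP hp2 hx)))

theorem objP {w : α → ℕ → ℕ → ℕ} (hw : PTime fun x : α × ℕ × ℕ => w x.1 x.2.1 x.2.2)
    {n : α → ℕ} {p p2 q : α → List ℕ} (hn : PTime n) (bn : PB n)
    (hp : PTime p) (hp2 : PTime p2) (hq : PTime q) :
    PTime fun a => M.obj (w a) (n a) (p a) (p2 a) (q a) := by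
  unfold M.obj
  exact PTime.lsum (PTime.lmap (rangeP hn bn)
    (g := fun (a : α) (y : ℕ) => M.arcTerm (w a) (n a) (p a) (q a) y +
      M.linkTerm (w a) (n a) (p a) (p2 a) (q a) y)
    (PTime.add
      (arcTermP (oracR hw PTime.fst) (hn.comp PTime.fst) (bn.comp PTime.fst)
        (hp.comp PTime.fst) (hq.comp PTime.fst) PTime.snd)
      (linkTermP (oracR hw PTime.fst) (hn.comp PTime.fst) (bn.comp PTime.fst)
        (hp.comp PTime.fst) (hp2.comp PTime.fst) (hq.comp PTime.fst) PTime.snd)))

theorem bitsP {w : α → ℕ → ℕ → ℕ} (hw : PTime fun x : α × ℕ × ℕ => w x.1 x.2.1 x.2.2)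
    {n : α → ℕ} {p p2 : α → List ℕ} (hn : PTime n) (bn : PB n)
    (hp : PTime p) (hp2 : PTime p2) :
    PTime fun a => M.bits (w a) (n a) (p a) (p2 a) := by
  have h1 : PTime fun t : α × List ℕ × ℕ => t.2.1.set t.2.2 2 :=
    PTime.lset (PTime.fst.comp PTime.snd) (PTime.snd.comp PTime.snd) (PTime.const 2)
  have h0 : PTime fun t : α × List ℕ × ℕ => t.2.1.set t.2.2 0 :=
    PTime.lset (PTime.fst.comp PTime.snd) (PTime.snd.comp PTime.snd) (PTime.const 0)
  have ho : ∀ k : ℕ, PTime (fun t : α × List ℕ × ℕ => t.2.1.set t.2.2 k) →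
      PTime fun t : α × List ℕ × ℕ =>
        M.obj (w t.1) (n t.1) (p t.1) (p2 t.1) (t.2.1.set t.2.2 k) := fun k hk =>
    objP (oracR hw PTime.fst) (hn.comp PTime.fst) (bn.comp PTime.fst) (hp.comp PTime.fst)
      (hp2.comp PTime.fst) hk
  have hi : PTime fun a => List.replicate (n a) 1 :=
    (PTime.lmap (rangeP hn bn) (g := fun (_ : α) (_ : ℕ) => 1) (PTime.const 1)).congr
      fun a => by simp
  exact foldInv (l := fun a => List.range (n a)) (init := fun a => List.replicate (n a) 1)
    (step := fun t : α × List ℕ × ℕ =>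
      if M.obj (w t.1) (n t.1) (p t.1) (p2 t.1) (t.2.1.set t.2.2 2) ≤
        M.obj (w t.1) (n t.1) (p t.1) (p2 t.1) (t.2.1.set t.2.2 0) then t.2.1.set t.2.2 0
      else t.2.1.set t.2.2 2)
    (rangeP hn bn) hi (iteP (PTime.le (ho 2 h1) (ho 0 h0)) h0 h1)
    (fun a s => s.length = n a ∧ ∀ x ∈ s, x ≤ 2) (fun a => n a * (2 * 2 + 2))
    (bn.mul (PB.const _))
    (fun a => ⟨by simp, fun x hx => by rw [List.eq_of_mem_replicate hx]; omega⟩)
    (fun a s b _ hs => by
      have key : ∀ k, k ≤ 2 → (s.set b k).length = n a ∧ ∀ x ∈ s.set b k, x ≤ 2 :=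
        fun k hk => ⟨by rw [List.length_set]; exact hs.1, fun x hx => by
          rcases List.mem_or_eq_of_mem_set hx with h | h
          · exact hs.2 x h
          · rw [h]; exact hk⟩
      dsimp only
      split_ifs
      · exact key 0 (by omega)
      · exact key 2 le_rfl)
    (fun a s hs => by
      have h := code_list_le s 2 fun x hx =>
        code_nat_le (lt_of_le_of_lt (hs.2 x hx) (by norm_num))
      rw [hs.1] at h
      exact h)


end Vale.Agent.P333.PT.ProgAux

namespace Vale.Agent.P333.PT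

open Vale.Agent.P337

variable {α : Type} [Code α]

theorem repP {n : α → ℕ} {p : α → List ℕ} {x : α → ℕ} (hn : PTime n) (hp : PTime p)
    (hx : PTime x) (qn : Polynomial ℕ) (hqn : ∀ a, n a ≤ qn.eval (Code.code a).length) :
    PTime fun a => M.rep (n a) (p a) (x a) :=
  ProgAux.repP hn ⟨qn, hqn⟩ hp hx

theorem kqP {n : α → ℕ} {p q : α → List ℕ} {x : α → ℕ} (hn : PTime n) (hp : PTime p)
    (hq : PTime q) (hx : PTime x) (qn : Polynomial ℕ)
    (hqn : ∀ a, n a ≤ qn.eval (Code.code a).length) :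
    PTime fun a => M.kq (n a) (p a) (q a) (x a) :=
  ProgAux.kqP hn ⟨qn, hqn⟩ hp hq hx

theorem bitsP {w : α → ℕ → ℕ → ℕ} {n : α → ℕ} {p1 p2 : α → List ℕ} (hn : PTime n)
    (hp1 : PTime p1) (hp2 : PTime p2) (hw : PTime fun x : α × ℕ × ℕ => w x.1 x.2.1 x.2.2)
    (qn : Polynomial ℕ) (hqn : ∀ a, n a ≤ qn.eval (Code.code a).length) :
    PTime fun a => M.bits (w a) (n a) (p1 a) (p2 a) :=
  ProgAux.bitsP hw hn ⟨qn, hqn⟩ hp1 hp2

end Vale.Agent.P333.PT
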