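import Vale.Agent.P333.PT.ProgP1

/-!
P333: the second half of the program `M/Prog` (arcs, weights, the heavier candidate, the whole
Max-ATSP program) is polynomial time.
-/

namespace Vale.Agent.P333.PT

open Vale.Agent.P337 Vale.Agent.P333

variable {α β : Type} [Code α] [Code β]

/-! ### Contexts -/

theorem bound_fst {n : α → ℕ} {q : Polynomial ℕ} (h : ∀ a, n a ≤ q.eval (Code.code a).length) :
    ∀ x : α × β, n x.1 ≤ q.eval (Code.code x).length := by
  intro x
  refine (h x.1).trans (eval_le_eval q ?_)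
  obtain ⟨a, b⟩ := x
  rw [code_pair, length_pairL]
  show (Code.code a).length ≤ _
  omega

theorem nxP2 {p : α → List ℕ} {x : α → ℕ} (hp : PTime p) (hx : PTime x) :
    PTime fun a => M.nx (p a) (x a) := PTime.lgetD hp hx (PTime.const 0)

/-! ### Weights -/

theorem wt1P {w : α → ℕ → ℕ → ℕ} (hw : PTime fun x : α × ℕ × ℕ => w x.1 x.2.1 x.2.2) :
    PTime fun x : α × ℕ × ℕ => M.wt1 (w x.1) x.2.1 x.2.2 := by
  refine (PTime.ite (PTime.eq (PTime.fst.comp PTime.snd) (PTime.snd.comp PTime.snd))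
    (PTime.const 0) hw).congr fun x => ?_
  unfold M.wt1
  by_cases h : x.2.1 = x.2.2 <;> simp [h]

theorem wt2P {n : α → ℕ} {p : α → List ℕ} {w : α → ℕ → ℕ → ℕ} (hn : PTime n) (hp : PTime p)
    (hw : PTime fun x : α × ℕ × ℕ => w x.1 x.2.1 x.2.2) (qn : Polynomial ℕ)
    (hqn : ∀ a, n a ≤ qn.eval (Code.code a).length) :
    PTime fun x : α × ℕ × ℕ => M.wt2 (w x.1) (n x.1) (p x.1) x.2.1 x.2.2 := by
  have h1 := repP (α := α × ℕ × ℕ) (hn.comp PTime.fst) (hp.comp PTime.fst)
    (PTime.fst.comp PTime.snd) qn (bound_fst hqn)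
  have h2 := repP (α := α × ℕ × ℕ) (hn.comp PTime.fst) (hp.comp PTime.fst)
    (PTime.snd.comp PTime.snd) qn (bound_fst hqn)
  refine (PTime.ite (PTime.eq h1 h2) (PTime.const 0) hw).congr fun x => ?_
  unfold M.wt2
  by_cases h : M.rep (n x.1) (p x.1) x.2.1 = M.rep (n x.1) (p x.1) x.2.2 <;> simp [h]

/-- weight of a path -/
theorem pwP {w : α → ℕ → ℕ → ℕ} {P : α → List ℕ}
    (hw : PTime fun x : α × ℕ × ℕ => w x.1 x.2.1 x.2.2) (hP : PTime P) :
    PTime fun a => M.pw (w a) (P a) := by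
  obtain ⟨r, hr⟩ := hP.csz_le
  have h : PTime fun a => List.range ((P a).length - 1) :=
    PTime.lrange (PTime.sub (PTime.llength hP) (PTime.const 1)) r fun a => by
      have h1 := length_le_csz (P a)
      have h2 := hr a
      change _ ≤ Polynomial.eval (csz a) _
      omega
  refine (PTime.lsum (PTime.lmap
    (g := fun a i => w a ((P a).getD i 0) ((P a).getD (i + 1) 0)) h
    (hw.comp (PTime.fst.pair ((PTime.lgetD (hP.comp PTime.fst) PTime.snd (PTime.const 0)).pair
      (PTime.lgetD (hP.comp PTime.fst) (PTime.add PTime.snd (PTime.const 1))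
        (PTime.const 0))))))).congr fun a => ?_
  unfold M.pw M.prs
  congr 1
  refine List.ext_getElem (by simp) fun i h1 h2 => ?_
  simp only [List.length_map, List.length_range] at h1
  simp only [List.getElem_map, List.getElem_range, List.getElem_zip, List.getElem_tail]
  rw [List.getD_eq_getElem _ _ (by omega), List.getD_eq_getElem _ _ (by omega)]

theorem heavierP {w : α → ℕ → ℕ → ℕ} {A B : α → List ℕ}
    (hw : PTime fun x : α × ℕ × ℕ => w x.1 x.2.1 x.2.2) (hA : PTime A) (hB : PTime B) :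
    PTime fun a => M.heavier (w a) (A a) (B a) := by
  refine (PTime.ite (PTime.le (pwP hw hB) (pwP hw hA)) hA hB).congr fun a => ?_
  unfold M.heavier
  by_cases h : M.pw (w a) (B a) ≤ M.pw (w a) (A a) <;> simp [h]

/-! ### Arcs -/

/-- the pairs `(x, p x)` -/
theorem arcsP {l p : α → List ℕ} (hl : PTime l) (hp : PTime p) :
    PTime fun a => (l a).map (fun x => (x, M.nx (p a) x)) :=
  PTime.lmap (g := fun a x => (x, M.nx (p a) x)) hl
    (PTime.snd.pair (nxP2 (hp.comp PTime.fst) PTime.snd))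

theorem arcsAP {n : α → ℕ} {p : α → List ℕ} (hn : PTime n) (hp : PTime p) (qn : Polynomial ℕ)
    (hqn : ∀ a, n a ≤ qn.eval (Code.code a).length) : PTime fun a => M.arcsA (n a) (p a) := by
  refine (arcsP (PTime.lfilter (p := fun a x => !decide (M.nx (p a) x = x))
    (PTime.lrange hn qn hqn)
    (PTime.not (PTime.eq (nxP2 (hp.comp PTime.fst) PTime.snd) PTime.snd))) hp).congr fun a => ?_
  unfold M.arcsA
  congr 2
  funext x
  simp

theorem arcsKP {n : α → ℕ} {p q : α → List ℕ} (hn : PTime n) (hp : PTime p) (hq : PTime q)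
    (qn : Polynomial ℕ) (hqn : ∀ a, n a ≤ qn.eval (Code.code a).length) :
    PTime fun a => M.arcsK (n a) (p a) (q a) :=
  arcsP (PTime.lfilter (p := fun a x => decide (M.kq (n a) (p a) (q a) x = 2))
    (PTime.lrange hn qn hqn)
    (PTime.eq (kqP (α := α × ℕ) (hn.comp PTime.fst) (hp.comp PTime.fst) (hq.comp PTime.fst)
      PTime.snd qn (bound_fst hqn)) (PTime.const 2))) hp

theorem arcsLP {n : α → ℕ} {p1 p2 q : α → List ℕ} (hn : PTime n) (hp1 : PTime p1)
    (hp2 : PTime p2) (hq : PTime q) (qn : Polynomial ℕ)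
    (hqn : ∀ a, n a ≤ qn.eval (Code.code a).length) :
    PTime fun a => M.arcsL (n a) (p1 a) (p2 a) (q a) := by
  have hy : PTime fun x : α × ℕ => M.nx (p2 x.1) x.2 := nxP2 (hp2.comp PTime.fst) PTime.snd
  have h1 : PTime fun x : α × ℕ => M.rep (n x.1) (p1 x.1) x.2 :=
    repP (α := α × ℕ) (hn.comp PTime.fst) (hp1.comp PTime.fst) PTime.snd qn (bound_fst hqn)
  have h2 : PTime fun x : α × ℕ => M.rep (n x.1) (p1 x.1) (M.nx (p2 x.1) x.2) :=
    repP (α := α × ℕ) (hn.comp PTime.fst) (hp1.comp PTime.fst) hy qn (bound_fst hqn)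
  have h3 : PTime fun x : α × ℕ => M.kq (n x.1) (p1 x.1) (q x.1) x.2 :=
    kqP (α := α × ℕ) (hn.comp PTime.fst) (hp1.comp PTime.fst) (hq.comp PTime.fst)
      PTime.snd qn (bound_fst hqn)
  have h4 : PTime fun x : α × ℕ => M.kq (n x.1) (p1 x.1) (q x.1)
      ((p1 x.1).idxOf (M.nx (p2 x.1) x.2)) :=
    kqP (α := α × ℕ) (hn.comp PTime.fst) (hp1.comp PTime.fst) (hq.comp PTime.fst)
      (ProgAux.idxOfP (hp1.comp PTime.fst) hy) qn (bound_fst hqn)
  refine (arcsP (PTime.lfilter (p := fun a x => !decide (M.rep (n a) (p1 a) x =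
      M.rep (n a) (p1 a) (M.nx (p2 a) x)) && (decide (M.kq (n a) (p1 a) (q a) x = 0) &&
      decide (M.kq (n a) (p1 a) (q a) ((p1 a).idxOf (M.nx (p2 a) x)) = 0)))
    (PTime.lrange hn qn hqn)
    (PTime.and (PTime.not (PTime.eq h1 h2)) (PTime.and (PTime.eq h3 (PTime.const 0))
      (PTime.eq h4 (PTime.const 0))))) hp2).congr fun a => ?_
  unfold M.arcsL
  congr 2
  funext x
  simp

end Vale.Agent.P333.PT
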