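import Vale.Agent.P333.PT.BreakP
import Vale.Agent.P333.PT.ProgP2
import Vale.Agent.P333.PT.AuctionP
import Vale.Agent.P333.PT.BoxDef

/-!
P333: the program `M/Prog` is polynomial time.
-/

namespace Vale.Agent.P333.PT

open Vale.Agent.P337 Vale.Agent.P333

variable {α : Type} [Code α]

theorem atspOfP {n : α → ℕ} {p1 p2 : α → List ℕ} {w : α → ℕ → ℕ → ℕ} (hn : PTime n)
    (hp1 : PTime p1) (hp2 : PTime p2) (hw : PTime fun x : α × ℕ × ℕ => w x.1 x.2.1 x.2.2)
    (qn : Polynomial ℕ) (hqn : ∀ a, n a ≤ qn.eval (Code.code a).length) :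
    PTime fun a => M.atspOf (w a) (n a) (p1 a) (p2 a) := by
  have hr : PTime fun a => List.range (n a) := PTime.lrange hn qn hqn
  have hb := bitsP hn hp1 hp2 hw qn hqn
  exact heavierP hw (breakFP hw hr (arcsAP hn hp1 qn hqn))
    (breakFP hw hr (PTime.lappend (arcsKP hn hp1 hb qn hqn) (arcsLP hn hp1 hp2 hb qn hqn)))

/-- the Max-ATSP program is polynomial time -/
theorem atspP {n C : α → ℕ} {w : α → ℕ → ℕ → ℕ} (hn : PTime n) (hC : PTime C)
    (hw : PTime fun x : α × ℕ × ℕ => w x.1 x.2.1 x.2.2) (qn qC : Polynomial ℕ)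
    (hqn : ∀ a, n a ≤ qn.eval (Code.code a).length)
    (hqC : ∀ a, C a ≤ qC.eval (Code.code a).length) :
    PTime fun a => M.atsp (n a) (C a) (w a) := by
  have h1 : PTime fun a => Auction.assign (n a) (C a) (M.wt1 (w a)) :=
    assignP hn hC (w := fun a => M.wt1 (w a)) (wt1P hw) qn qC hqn hqC
  have h2 : PTime fun a => Auction.assign (n a) (C a)
      (M.wt2 (w a) (n a) (Auction.assign (n a) (C a) (M.wt1 (w a)))) :=
    assignP hn hC (w := fun a => M.wt2 (w a) (n a) (Auction.assign (n a) (C a) (M.wt1 (w a))))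
      (wt2P hn h1 hw qn hqn) qn qC hqn hqC
  exact atspOfP hn h1 h2 hw qn hqn

/-- the Max-ATSP program is a polynomial time box -/
theorem boxP_atsp : BoxP M.atsp := fun _ _ _ _ _ hn hC hw qn qC hqn hqC =>
  atspP hn hC hw qn qC hqn hqC

end Vale.Agent.P333.PT
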