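import Vale.Agent.P333.PT.ListS
import Vale.Agent.P333.PT.ProgP2
import Vale.Agent.P333.PT.AuctionP
import Vale.Agent.P333.T.Prog23

/-!
P333, box T (`T/Prog23`): the types of the nodes, the second assignment and the arcs are
polynomial time.
-/

namespace Vale.Agent.P333.PT.T23

open Vale.Agent.P337 Vale.Agent.P333 Vale.Agent.P333.T

variable {α β : Type} [Code α] [Code β]

theorem nxP {p : α → List ℕ} {x : α → ℕ} (hp : PTime p) (hx : PTime x) :
    PTime fun a => M.nx (p a) (x a) := nxP2 hp hx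

theorem bltP {x y : α → ℕ} (hx : PTime x) (hy : PTime y) :
    PTime fun a => Nat.blt (x a) (y a) :=
  (PTime.lt hx hy).congr fun a => by
    rw [Bool.eq_iff_iff, decide_eq_true_iff, Nat.blt_eq]

/-- use of an oracle -/
theorem orac {w : α → ℕ → ℕ → ℕ} (hw : PTime fun x : α × ℕ × ℕ => w x.1 x.2.1 x.2.2)
    {i j : α → ℕ} (hi : PTime i) (hj : PTime j) : PTime fun a => w a (i a) (j a) :=
  hw.comp (PTime.id.pair (hi.pair hj))

/-- change of the parameter of an oracle -/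
theorem oracR {w : α → ℕ → ℕ → ℕ} (hw : PTime fun x : α × ℕ × ℕ => w x.1 x.2.1 x.2.2)
    {f : β → α} (hf : PTime f) : PTime fun x : β × ℕ × ℕ => w (f x.1) x.2.1 x.2.2 :=
  hw.comp ((hf.comp PTime.fst).pair PTime.snd)

/-! ### Types of nodes -/

theorem isPairP {p : α → List ℕ} {x : α → ℕ} (hp : PTime p) (hx : PTime x) :
    PTime fun a => isPair (p a) (x a) :=
  PTime.and (PTime.not (PTime.beq (nxP hp hx) hx)) (PTime.beq (nxP hp (nxP hp hx)) hx)

theorem isLongP {p : α → List ℕ} {x : α → ℕ} (hp : PTime p) (hx : PTime x) :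
    PTime fun a => isLong (p a) (x a) :=
  PTime.and (PTime.not (PTime.beq (nxP hp hx) hx)) (PTime.not (PTime.beq (nxP hp (nxP hp hx)) hx))

theorem nearP {p : α → List ℕ} {x y : α → ℕ} (hp : PTime p) (hx : PTime x) (hy : PTime y) :
    PTime fun a => near (p a) (x a) (y a) :=
  PTime.or (PTime.beq hy hx) (PTime.and (isPairP hp hx) (PTime.beq hy (nxP hp hx)))

theorem hubOfP {p : α → List ℕ} {h x : α → ℕ} (hp : PTime p) (hh : PTime h) (hx : PTime x) :
    PTime fun a => hubOf (p a) (h a) (x a) :=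
  PTime.and (PTime.and (isPairP hp hh) (bltP hh (nxP hp hh)))
    (PTime.or (PTime.beq hx hh) (PTime.beq hx (nxP hp hh)))

theorem hwP {n B : α → ℕ} {w : α → ℕ → ℕ → ℕ} {p : α → List ℕ} {x y : α → ℕ} (hn : PTime n)
    (hB : PTime B) (hw : PTime fun x : α × ℕ × ℕ => w x.1 x.2.1 x.2.2) (hp : PTime p)
    (hx : PTime x) (hy : PTime y) : PTime fun a => T.hw (n a) (B a) (w a) (p a) (x a) (y a) :=
  PTime.dite' (PTime.lt hx hn)
    (PTime.dite' (PTime.lt hy hn)
      (PTime.dite' (PTime.dofBool (nearP hp hx hy)) (PTime.const 0)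
        (PTime.mul (PTime.const 2) (orac hw hx hy)))
      (PTime.dite' (PTime.dofBool (hubOfP hp (PTime.sub hy hn) hx))
        (PTime.add hB (orac hw hx (nxP hp hx))) (PTime.const 0)))
    (PTime.dite' (PTime.lt hy hn)
      (PTime.dite' (PTime.dofBool (hubOfP hp (PTime.sub hx hn) hy))
        (PTime.add hB (orac hw (nxP hp hy) hy)) (PTime.const 0))
      (PTime.dite' (PTime.eq hx hy) (PTime.mul (PTime.const 2) hB) (PTime.const 0)))

theorem bonusP {n C : α → ℕ} (hn : PTime n) (hC : PTime C) : PTime fun a => bonus (n a) (C a) :=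
  PTime.add (PTime.mul (PTime.mul (PTime.const 4) hC) hn) (PTime.const 1)

theorem asg2P {n C : α → ℕ} {w : α → ℕ → ℕ → ℕ} {p : α → List ℕ} (hn : PTime n) (hC : PTime C)
    (hw : PTime fun x : α × ℕ × ℕ => w x.1 x.2.1 x.2.2) (hp : PTime p) (qn qC : Polynomial ℕ)
    (hqn : ∀ a, n a ≤ qn.eval (Code.code a).length)
    (hqC : ∀ a, C a ≤ qC.eval (Code.code a).length) :
    PTime fun a => asg2 (n a) (C a) (w a) (p a) := by
  have h := assignP (n := fun a => n a + n a) (C := fun a => 2 * bonus (n a) (C a) + 2 * C a)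
    (w := fun a => T.hw (n a) (bonus (n a) (C a)) (w a) (p a)) (PTime.add hn hn)
    (PTime.add (PTime.mul (PTime.const 2) (bonusP hn hC)) (PTime.mul (PTime.const 2) hC))
    (hwP (hn.comp PTime.fst) ((bonusP hn hC).comp PTime.fst) (oracR hw PTime.fst)
      (hp.comp PTime.fst) (PTime.fst.comp PTime.snd) (PTime.snd.comp PTime.snd))
    (qn + qn) (2 * (4 * qC * qn + 1) + 2 * qC)
    (fun a => by
      have := hqn a
      rw [Polynomial.eval_add]
      omega)
    (fun a => by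
      have h1 := hqn a
      have h2 := hqC a
      have h3 := Nat.mul_le_mul h2 h1
      simp only [bonus, Polynomial.eval_add, Polynomial.eval_mul, Polynomial.eval_ofNat,
        Polynomial.eval_one]
      nlinarith)
  exact h

/-! ### The arcs -/

theorem hubP {n : α → ℕ} {p : α → List ℕ} {x : α → ℕ} (hn : PTime n) (hp : PTime p)
    (hx : PTime x) : PTime fun a => hub (n a) (p a) (x a) :=
  PTime.add hn (PTime.nmin hx (nxP hp hx))

theorem isNP {n : α → ℕ} {p1 p2 : α → List ℕ} {x : α → ℕ} (hn : PTime n) (hp1 : PTime p1)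
    (hp2 : PTime p2) (hx : PTime x) : PTime fun a => isN (n a) (p1 a) (p2 a) (x a) :=
  PTime.and (isPairP hp1 hx) (PTime.beq (nxP hp2 (hubP hn hp1 hx)) (hubP hn hp1 hx))

theorem isEP {n : α → ℕ} {p1 p2 : α → List ℕ} {x : α → ℕ} (hn : PTime n) (hp1 : PTime p1)
    (hp2 : PTime p2) (hx : PTime x) : PTime fun a => isE (n a) (p1 a) (p2 a) (x a) :=
  PTime.and (PTime.and (isPairP hp1 hx) (PTime.beq (nxP hp2 hx) (hubP hn hp1 hx)))
    (PTime.beq (nxP hp2 (hubP hn hp1 hx)) (nxP hp1 hx))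

theorem isUP {n : α → ℕ} {p1 p2 : α → List ℕ} {x : α → ℕ} (hn : PTime n) (hp1 : PTime p1)
    (hp2 : PTime p2) (hx : PTime x) : PTime fun a => isU (n a) (p1 a) (p2 a) (x a) :=
  PTime.and (PTime.and (isPairP hp1 hx) (PTime.beq (nxP hp2 hx) (hubP hn hp1 hx)))
    (PTime.beq (nxP hp2 (hubP hn hp1 hx)) hx)

theorem arcs1P {n : α → ℕ} {p1 : α → List ℕ} (hn : PTime n) (hp1 : PTime p1)
    (qn : Polynomial ℕ) (hqn : ∀ a, n a ≤ qn.eval (Code.code a).length) :
    PTime fun a => arcs1 (n a) (p1 a) :=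
  arcsP (PTime.lfilter (p := fun a x => isLong (p1 a) x) (PTime.lrange hn qn hqn)
    (isLongP (hp1.comp PTime.fst) PTime.snd)) hp1

theorem arcs2P {n : α → ℕ} {p1 p2 : α → List ℕ} (hn : PTime n) (hp1 : PTime p1)
    (hp2 : PTime p2) (qn : Polynomial ℕ) (hqn : ∀ a, n a ≤ qn.eval (Code.code a).length) :
    PTime fun a => arcs2 (n a) (p1 a) (p2 a) :=
  arcsP (PTime.lfilter
    (p := fun a x => Nat.blt (M.nx (p2 a) x) (n a) && !(near (p1 a) x (M.nx (p2 a) x)))
    (PTime.lrange hn qn hqn)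
    (PTime.and (bltP (nxP (hp2.comp PTime.fst) PTime.snd) (hn.comp PTime.fst))
      (PTime.not (nearP (hp1.comp PTime.fst) PTime.snd (nxP (hp2.comp PTime.fst) PTime.snd))))) hp2

theorem arcsNP {n : α → ℕ} {p1 p2 : α → List ℕ} (hn : PTime n) (hp1 : PTime p1)
    (hp2 : PTime p2) (qn : Polynomial ℕ) (hqn : ∀ a, n a ≤ qn.eval (Code.code a).length) :
    PTime fun a => arcsN (n a) (p1 a) (p2 a) :=
  arcsP (PTime.lfilter (p := fun a x => isN (n a) (p1 a) (p2 a) x) (PTime.lrange hn qn hqn)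
    (isNP (hn.comp PTime.fst) (hp1.comp PTime.fst) (hp2.comp PTime.fst) PTime.snd)) hp1

theorem arcsP' {n : α → ℕ} {p1 p2 : α → List ℕ} (hn : PTime n) (hp1 : PTime p1)
    (hp2 : PTime p2) (qn : Polynomial ℕ) (hqn : ∀ a, n a ≤ qn.eval (Code.code a).length) :
    PTime fun a => arcs (n a) (p1 a) (p2 a) :=
  PTime.lappend (arcs1P hn hp1 qn hqn)
    (PTime.lappend (arcs2P hn hp1 hp2 qn hqn) (arcsNP hn hp1 hp2 qn hqn))

theorem mateP {n : α → ℕ} {p1 p2 : α → List ℕ} {x : α → ℕ} (hn : PTime n) (hp1 : PTime p1)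
    (hp2 : PTime p2) (hx : PTime x) : PTime fun a => mate (n a) (p1 a) (p2 a) (x a) :=
  PTime.dite' (PTime.eq (nxP hp1 hx) hx) hx
    (PTime.dite' (PTime.dofBool (isPairP hp1 hx))
      (PTime.dite' (PTime.dofBool (isEP hn hp1 hp2 hx)) (nxP hp1 hx)
        (PTime.dite' (PTime.dofBool (isUP hn hp1 hp2 (nxP hp1 hx))) hx (PTime.add hn hn)))
      (PTime.dite' (PTime.eq (nxP hp2 hx) hx) hx (PTime.add hn hn)))

end Vale.Agent.P333.PT.T23
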