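import Vale.Agent.P333.PT.T23A

/-!
P333, box T (`T/Prog23`): the breadth first search and the units are polynomial time.
-/

namespace Vale.Agent.P333.PT.T23

open Vale.Agent.P337 Vale.Agent.P333 Vale.Agent.P333.T

variable {α β : Type} [Code α] [Code β]

theorem bound_fst {n : α → ℕ} {q : Polynomial ℕ}
    (h : ∀ a, n a ≤ q.eval (Code.code a).length) (x : α × β) :
    n x.1 ≤ q.eval (Code.code x).length :=
  (h x.1).trans (Vale.Agent.P337.eval_le_eval q (by
    obtain ⟨a, b⟩ := x
    show (Code.code a).length ≤ (Code.code (a, b)).length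
    rw [code_pair, length_pairL]
    omega))

theorem bound_succ {n : α → ℕ} {q : Polynomial ℕ}
    (h : ∀ a, n a ≤ q.eval (Code.code a).length) (a : α) :
    n a + 1 ≤ (q + 1).eval (Code.code a).length := by
  have := h a
  rw [Polynomial.eval_add, Polynomial.eval_one]
  omega

theorem rootP {p1 p2 : α → List ℕ} {x : α → ℕ} (hp1 : PTime p1) (hp2 : PTime p2)
    (hx : PTime x) : PTime fun a => root (p1 a) (p2 a) (x a) :=
  PTime.not (PTime.and (isLongP hp1 hx) (PTime.not (PTime.beq (nxP hp2 hx) hx)))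

theorem growP {n : α → ℕ} {p1 p2 R : α → List ℕ} (hn : PTime n) (hp1 : PTime p1)
    (hp2 : PTime p2) (hR : PTime R) (qn : Polynomial ℕ)
    (hqn : ∀ a, n a ≤ qn.eval (Code.code a).length) :
    PTime fun a => grow (n a) (p1 a) (p2 a) (R a) := by
  have h1 : PTime fun x : α × ℕ => p1 x.1 := hp1.comp PTime.fst
  have h2 : PTime fun x : α × ℕ => p2 x.1 := hp2.comp PTime.fst
  have hr : PTime fun x : α × ℕ => R x.1 := hR.comp PTime.fst
  have hx : PTime fun x : α × ℕ => x.2 := PTime.snd
  exact PTime.lfilter (p := fun a x => (R a).contains x || (R a).contains (M.nx (p1 a) x) ||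
      (R a).contains ((p1 a).idxOf x) || (R a).contains (M.nx (p2 a) x) ||
      (R a).contains ((p2 a).idxOf x)) (PTime.lrange hn qn hqn)
    (PTime.or (PTime.or (PTime.or (PTime.or (PTime.lcontains hx hr)
      (PTime.lcontains (nxP h1 hx) hr)) (PTime.lcontains (PTime.lidxOf hx h1) hr))
      (PTime.lcontains (nxP h2 hx) hr)) (PTime.lcontains (PTime.lidxOf hx h2) hr))

theorem reachP {n k : α → ℕ} {p1 p2 : α → List ℕ} (hn : PTime n) (hp1 : PTime p1)
    (hp2 : PTime p2) (hk : PTime k) (qn : Polynomial ℕ)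
    (hqn : ∀ a, n a ≤ qn.eval (Code.code a).length) (qk : Polynomial ℕ)
    (hqk : ∀ a, k a ≤ qk.eval (Code.code a).length) :
    PTime fun a => reach (n a) (p1 a) (p2 a) (k a) := by
  obtain ⟨r, hr⟩ := (PTime.lrange hn qn hqn).csz_le
  exact PTime.foldlInv (step := fun a R _ => grow (n a) (p1 a) (p2 a) R)
    (PTime.lrange hk qk hqk)
    (PTime.lfilter (p := fun a x => root (p1 a) (p2 a) x) (PTime.lrange hn qn hqn)
      (rootP (hp1.comp PTime.fst) (hp2.comp PTime.fst) PTime.snd))
    (growP (hn.comp PTime.fst) (hp1.comp PTime.fst) (hp2.comp PTime.fst)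
      (PTime.fst.comp PTime.snd) qn (bound_fst hqn))
    (fun a R => R.Sublist (List.range (n a))) r (fun a => List.filter_sublist)
    (fun a s b _ _ => List.filter_sublist) (fun a s hs => (csz_sublist hs).trans (hr a))

theorem levelP {n x : α → ℕ} {p1 p2 : α → List ℕ} (hn : PTime n) (hp1 : PTime p1)
    (hp2 : PTime p2) (hx : PTime x) (qn : Polynomial ℕ)
    (hqn : ∀ a, n a ≤ qn.eval (Code.code a).length) :
    PTime fun a => level (n a) (p1 a) (p2 a) (x a) := by
  have hn1 : PTime fun a => n a + 1 := PTime.add hn (PTime.const 1)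
  refine (PTime.llength (PTime.lfilter
    (p := fun a k => !((reach (n a) (p1 a) (p2 a) (min k (n a + 1))).contains (x a)))
    (PTime.lrange hn1 (qn + 1) (bound_succ hqn))
    (PTime.not (PTime.lcontains (hx.comp PTime.fst)
      (reachP (k := fun y : α × ℕ => min y.2 (n y.1 + 1)) (hn.comp PTime.fst)
        (hp1.comp PTime.fst) (hp2.comp PTime.fst)
        (PTime.nmin PTime.snd (hn1.comp PTime.fst)) qn (bound_fst hqn) (qn + 1)
        fun y => (min_le_right _ _).trans
          (bound_fst (n := fun a => n a + 1) (bound_succ hqn) y)))))).congr fun a => ?_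
  unfold level
  congr 1
  refine List.filter_congr fun k hk => ?_
  rw [min_eq_left (List.mem_range.1 hk).le]

theorem unitOfP {n x : α → ℕ} {p1 p2 : α → List ℕ} (hn : PTime n) (hp1 : PTime p1)
    (hp2 : PTime p2) (hx : PTime x) : PTime fun a => unitOf (n a) (p1 a) (p2 a) (x a) :=
  PTime.dite' (PTime.dofBool (isNP hn hp1 hp2 hx))
    (PTime.dite' (PTime.lt hx (nxP hp1 hx))
      (PTime.cons' hx (PTime.cons' (nxP hp1 hx) PTime.nil')) PTime.nil')
    (PTime.cons' hx PTime.nil')

theorem unitsP {n : α → ℕ} {p1 p2 : α → List ℕ} (hn : PTime n) (hp1 : PTime p1)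
    (hp2 : PTime p2) (qn : Polynomial ℕ) (hqn : ∀ a, n a ≤ qn.eval (Code.code a).length) :
    PTime fun a => units (n a) (p1 a) (p2 a) := by
  have hn1 : PTime fun a => n a + 1 := PTime.add hn (PTime.const 1)
  refine PTime.lflatten (PTime.lmap (g := fun a k =>
    ((List.range (n a)).filter (fun x => level (n a) (p1 a) (p2 a) x == n a - k)).map
      (fun x => unitOf (n a) (p1 a) (p2 a) x)) (PTime.lrange hn1 (qn + 1) (bound_succ hqn)) ?_)
  refine PTime.lmap (g := fun (y : α × ℕ) x => unitOf (n y.1) (p1 y.1) (p2 y.1) x)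
    (PTime.lfilter (p := fun (y : α × ℕ) x =>
      level (n y.1) (p1 y.1) (p2 y.1) x == n y.1 - y.2)
      (PTime.lrange (hn.comp PTime.fst) qn (bound_fst hqn)) ?_) ?_
  · exact PTime.beq (levelP (hn.comp (PTime.fst.comp PTime.fst))
      (hp1.comp (PTime.fst.comp PTime.fst)) (hp2.comp (PTime.fst.comp PTime.fst)) PTime.snd qn
      (bound_fst (n := fun y : α × ℕ => n y.1) (bound_fst hqn)))
      (PTime.sub (hn.comp (PTime.fst.comp PTime.fst)) (PTime.snd.comp PTime.fst))
  · exact unitOfP (hn.comp (PTime.fst.comp PTime.fst)) (hp1.comp (PTime.fst.comp PTime.fst))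
      (hp2.comp (PTime.fst.comp PTime.fst)) PTime.snd

end Vale.Agent.P333.PT.T23
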