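import Vale.Agent.P333.PT.ListS
import Vale.Agent.P333.T.Prog23

/-!
P333, box T (`T/Prog23`): the checks of the colouring program are polynomial time.
-/

namespace Vale.Agent.P333.PT.T23

open Vale.Agent.P337 Vale.Agent.P333 Vale.Agent.P333.T

variable {α : Type} [Code α]

theorem clsP {S : α → List ((ℕ × ℕ) × ℕ)} {t : α → ℕ} (hS : PTime S) (ht : PTime t) :
    PTime fun a => cls (S a) (t a) :=
  PTime.lmap (g := fun (_ : α) (b : (ℕ × ℕ) × ℕ) => b.1)
    (PTime.lfilter (p := fun (a : α) (b : (ℕ × ℕ) × ℕ) => b.2 == t a) hS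
      (PTime.beq (PTime.snd.comp PTime.snd) (ht.comp PTime.fst)))
    (PTime.fst.comp PTime.snd)

theorem rangeLenP {β : Type} [Code β] {l : α → List β} (hl : PTime l) :
    PTime fun a => List.range (l a).length := by
  obtain ⟨r, hr⟩ := hl.csz_le
  exact PTime.lrange (PTime.llength hl) r fun a => (length_le_csz (l a)).trans (hr a)

theorem nodupBP {l : α → List ℕ} (hl : PTime l) : PTime fun a => nodupB (l a) :=
  PTime.lall (p := fun (a : α) (i : ℕ) => (l a).idxOf ((l a).getD i 0) == i) (rangeLenP hl)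
    (PTime.beq (PTime.lidxOf (PTime.lgetD (hl.comp PTime.fst) PTime.snd (PTime.const 0))
      (hl.comp PTime.fst)) PTime.snd)

theorem nxtP {F : α → List (ℕ × ℕ)} {x : α → ℕ} (hF : PTime F) (hx : PTime x) :
    PTime fun a => nxt (F a) (x a) :=
  PTime.snd.comp (PTime.lfindD (p := fun (a : α) (e : ℕ × ℕ) => e.1 == x a)
    (d := fun a => (x a, x a)) hF
    (PTime.beq (PTime.fst.comp PTime.snd) (hx.comp PTime.fst)) (hx.pair hx))

theorem csz_nxt_le (F : List (ℕ × ℕ)) (x : ℕ) : csz (nxt F x) ≤ csz x + csz F := by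
  unfold nxt
  cases h : F.find? (fun e => e.1 == x) with
  | none =>
    change csz x ≤ csz x + csz F
    omega
  | some e =>
    have h1 := csz_mem (List.mem_of_find?_eq_some h)
    have h2 : csz e = 2 * csz e.1 + 2 + csz e.2 := csz_pair e.1 e.2
    change csz e.2 ≤ csz x + csz F
    omega

theorem csz_nxt_le' (F : List (ℕ × ℕ)) (x y : ℕ) (h : csz y ≤ csz x + csz F) :
    csz (nxt F y) ≤ csz x + csz F := by
  unfold nxt
  cases h' : F.find? (fun e => e.1 == y) with
  | none =>
    change csz y ≤ csz x + csz F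
    exact h
  | some e =>
    have h1 := csz_mem (List.mem_of_find?_eq_some h')
    have h2 : csz e = 2 * csz e.1 + 2 + csz e.2 := csz_pair e.1 e.2
    change csz e.2 ≤ csz x + csz F
    omega

theorem walkP {F : α → List (ℕ × ℕ)} {x : α → ℕ} (hF : PTime F) (hx : PTime x) :
    PTime fun a => walk (F a) (x a) := by
  obtain ⟨r, hr⟩ := hF.csz_le
  obtain ⟨s, hs⟩ := hx.csz_le
  exact PTime.foldlInv (l := fun a => List.range (F a).length) (init := x)
    (step := fun (a : α) (y : ℕ) (_ : ℕ) => nxt (F a) y) (rangeLenP hF) hx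
    (nxtP (hF.comp PTime.fst) (PTime.fst.comp PTime.snd))
    (fun a y => csz y ≤ csz (x a) + csz (F a)) (s + r)
    (fun a => Nat.le_add_right _ _)
    (fun a y _ _ h => csz_nxt_le' _ _ _ h)
    (fun a y h => by
      rw [Polynomial.eval_add]
      exact h.trans (add_le_add (hs a) (hr a)))

theorem acycP {F : α → List (ℕ × ℕ)} (hF : PTime F) : PTime fun a => acyc (F a) :=
  PTime.lall (p := fun (a : α) (e : ℕ × ℕ) =>
    !((F a).any (fun f => f.1 == walk (F a) e.1))) hF
    (PTime.not (PTime.lany (p := fun (y : α × (ℕ × ℕ)) (f : ℕ × ℕ) => f.1 == walk (F y.1) y.2.1)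
      (hF.comp PTime.fst)
      (PTime.beq (PTime.fst.comp PTime.snd)
        (walkP (hF.comp (PTime.fst.comp PTime.fst))
          (PTime.fst.comp (PTime.snd.comp PTime.fst))))))

theorem lfbP {F : α → List (ℕ × ℕ)} (hF : PTime F) : PTime fun a => lfb (F a) :=
  PTime.and (PTime.and
    (nodupBP (PTime.lmap (g := fun (_ : α) (e : ℕ × ℕ) => e.1) hF (PTime.fst.comp PTime.snd)))
    (nodupBP (PTime.lmap (g := fun (_ : α) (e : ℕ × ℕ) => e.2) hF (PTime.snd.comp PTime.snd))))
    (acycP hF)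

theorem thinBP {m : α → ℕ → ℕ} {S : α → List ((ℕ × ℕ) × ℕ)}
    (hm : PTime fun x : α × ℕ => m x.1 x.2) (hS : PTime S) :
    PTime fun a => thinB (m a) (S a) :=
  PTime.lall (p := fun (a : α) (u : (ℕ × ℕ) × ℕ) =>
    (S a).all (fun b => !((u.2 == b.2) && (b.1.1 == m a u.1.2)))) hS
    (PTime.lall (p := fun (y : α × ((ℕ × ℕ) × ℕ)) (b : (ℕ × ℕ) × ℕ) =>
      !((y.2.2 == b.2) && (b.1.1 == m y.1 y.2.1.2))) (hS.comp PTime.fst)
      (PTime.not (PTime.and
        (PTime.beq (PTime.snd.comp (PTime.snd.comp PTime.fst)) (PTime.snd.comp PTime.snd))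
        (PTime.beq (PTime.fst.comp (PTime.fst.comp PTime.snd))
          (hm.comp ((PTime.fst.comp PTime.fst).pair
            (PTime.snd.comp (PTime.fst.comp (PTime.snd.comp PTime.fst)))))))))

theorem goodP {m : α → ℕ → ℕ} {S : α → List ((ℕ × ℕ) × ℕ)}
    (hm : PTime fun x : α × ℕ => m x.1 x.2) (hS : PTime S) :
    PTime fun a => good (m a) (S a) :=
  PTime.and (PTime.and (PTime.and (lfbP (clsP hS (PTime.const 0)))
    (lfbP (clsP hS (PTime.const 1)))) (lfbP (clsP hS (PTime.const 2)))) (thinBP hm hS)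

theorem paintP {A : α → List (ℕ × ℕ)} {c : α → ℕ} (hA : PTime A) (hc : PTime c) :
    PTime fun a => paint (A a) (c a) :=
  PTime.lmap (g := fun (a : α) (i : ℕ) =>
    ((A a).getD i (0, 0), c a / ([1, 3, 9, 27, 81, 243].getD i 1) % 3)) (rangeLenP hA)
    ((PTime.lgetD (hA.comp PTime.fst) PTime.snd (PTime.const (0, 0))).pair
      (PTime.mod (PTime.div (hc.comp PTime.fst)
        (PTime.lgetD (PTime.const _) PTime.snd (PTime.const 1))) (PTime.const 3)))

end Vale.Agent.P333.PT.T23
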