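import Vale.Agent.P333.PT.T23A
import Vale.Agent.P333.PT.T23C

/-!
# P333, box 2/3: the colouring is a polynomial time function
-/

namespace Vale.Agent.P333.PT.T23

open Vale.Agent.P337 Vale.Agent.P333.T

variable {α : Type} [Code α]

theorem newArcsP {E : α → List (ℕ × ℕ)} {D U : α → List ℕ} (hE : PTime E) (hD : PTime D)
    (hU : PTime U) : PTime fun a => newArcs (E a) (D a) (U a) := by
  have h1 : PTime fun x : α × ℕ × ℕ => (U x.1).contains x.2.1 :=
    PTime.lcontains (PTime.fst.comp PTime.snd) (hU.comp PTime.fst)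
  have h2 : PTime fun x : α × ℕ × ℕ => (D x.1).contains x.2.1 :=
    PTime.lcontains (PTime.fst.comp PTime.snd) (hD.comp PTime.fst)
  have h3 : PTime fun x : α × ℕ × ℕ => (U x.1).contains x.2.2 :=
    PTime.lcontains (PTime.snd.comp PTime.snd) (hU.comp PTime.fst)
  have h4 : PTime fun x : α × ℕ × ℕ => (D x.1).contains x.2.2 :=
    PTime.lcontains (PTime.snd.comp PTime.snd) (hD.comp PTime.fst)
  exact PTime.lfilter (p := fun a e => ((((U a).contains e.1 || (D a).contains e.1) &&
    ((U a).contains e.2 || (D a).contains e.2)) &&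
    !((D a).contains e.1 && (D a).contains e.2))) hE
    (PTime.and (PTime.and (PTime.or h1 h2) (PTime.or h3 h4)) (PTime.not (PTime.and h2 h4)))

/-- all numbers that are tried as colourings -/
theorem stepUP {E : α → List (ℕ × ℕ)} {m : α → ℕ → ℕ}
    {s : α → List ℕ × List ((ℕ × ℕ) × ℕ)} {U : α → List ℕ} (hE : PTime E)
    (hm : PTime fun x : α × ℕ => m x.1 x.2) (hs : PTime s) (hU : PTime U) :
    PTime fun a => stepU (E a) (m a) (s a) (U a) := by
  have hA : PTime fun a => newArcs (E a) (s a).1 (U a) := newArcsP hE (PTime.fst.comp hs) hU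
  have hc : PTime fun a => (((List.range 729).find? (fun c =>
      good (m a) (paint (newArcs (E a) (s a).1 (U a)) c ++ (s a).2))).getD 0) := by
    refine PTime.lfindD (p := fun a c =>
      good (m a) (paint (newArcs (E a) (s a).1 (U a)) c ++ (s a).2)) (PTime.const _) ?_
      (PTime.const 0)
    refine goodP (α := α × ℕ) (m := fun x => m x.1) ?_ ?_
    · exact hm.comp ((PTime.fst.comp PTime.fst).pair PTime.snd)
    · exact PTime.lappend (paintP (hA.comp PTime.fst) PTime.snd)
        ((PTime.snd.comp hs).comp PTime.fst)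
  exact (PTime.lappend hU (PTime.fst.comp hs)).pair
    (PTime.lappend (paintP hA hc) (PTime.snd.comp hs))

theorem csz_lt_three {c : ℕ} (h : c < 3) : csz c ≤ 3 := (csz_nat_le c).trans (by omega)

theorem csz_paint_le (A : List (ℕ × ℕ)) (c : ℕ) :
    csz (paint A c) ≤ csz A * (2 * (2 * csz A + 2 + 3) + 2) := by
  refine csz_le_of (fun b hb => ?_) ?_
  · unfold paint at hb
    rw [List.mem_map] at hb
    obtain ⟨i, hi, rfl⟩ := hb
    rw [List.mem_range] at hi
    rw [csz_pair]
    have h1 : A.getD i (0, 0) ∈ A := by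
      rw [List.getD_eq_getElem _ _ hi]
      exact List.getElem_mem hi
    have h2 := csz_mem h1
    have h3 := csz_lt_three (Nat.mod_lt (c / ([1, 3, 9, 27, 81, 243].getD i 1)) (by norm_num :
      (3 : ℕ) > 0))
    omega
  · unfold paint
    rw [List.length_map, List.length_range]
    exact length_le_csz A

theorem csz_stepU_le (E : List (ℕ × ℕ)) (m : ℕ → ℕ) (s : List ℕ × List ((ℕ × ℕ) × ℕ))
    (U : List ℕ) : csz (stepU E m s U) ≤
      csz s + (2 * csz U + csz E * (2 * (2 * csz E + 2 + 3) + 2)) := by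
  obtain ⟨D, S⟩ := s
  have h1 : csz (newArcs E D U) ≤ csz E := csz_sublist List.filter_sublist
  have h2 := csz_paint_le (newArcs E D U) (((List.range 729).find?
      (fun c => good m (paint (newArcs E D U) c ++ S))).getD 0)
  have h3 : csz (newArcs E D U) * (2 * (2 * csz (newArcs E D U) + 2 + 3) + 2) ≤
      csz E * (2 * (2 * csz E + 2 + 3) + 2) := Nat.mul_le_mul h1 (by omega)
  unfold stepU
  dsimp only
  rw [csz_pair, csz_append, csz_append, csz_pair]
  omega

theorem colourP {E : α → List (ℕ × ℕ)} {m : α → ℕ → ℕ} {L : α → List (List ℕ)} (hE : PTime E)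
    (hm : PTime fun x : α × ℕ => m x.1 x.2) (hL : PTime L) :
    PTime fun a => colour (E a) (m a) (L a) := by
  obtain ⟨r, hr⟩ := hL.csz_le
  obtain ⟨t, ht⟩ := hE.csz_le
  refine PTime.snd.comp (PTime.foldlGrow (step := fun a s U => stepU (E a) (m a) s U)
    (init := fun _ => ([], [])) hL (PTime.const _) ?_
    (2 * r + t * (2 * (2 * t + 2 + 3) + 2)) ?_)
  · refine stepUP (α := α × (List ℕ × List ((ℕ × ℕ) × ℕ)) × List ℕ) (m := fun x => m x.1)
      (hE.comp PTime.fst) ?_ (PTime.fst.comp PTime.snd) (PTime.snd.comp PTime.snd)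
    exact hm.comp ((PTime.fst.comp PTime.fst).pair PTime.snd)
  · intro a s U hU
    refine (csz_stepU_le (E a) (m a) s U).trans ?_
    have h1 := csz_mem hU
    have h2 := hr a
    have h3 := ht a
    have h4 : csz (E a) * (2 * (2 * csz (E a) + 2 + 3) + 2) ≤
        t.eval (csz a) * (2 * (2 * t.eval (csz a) + 2 + 3) + 2) :=
      Nat.mul_le_mul h3 (by omega)
    simp only [Polynomial.eval_add, Polynomial.eval_mul, Polynomial.eval_ofNat]
    omega

/-- the colouring, from the row for the units -/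
theorem colOfP_of {n : α → ℕ} {p1 p2 : α → List ℕ} (hn : PTime n) (hp1 : PTime p1)
    (hp2 : PTime p2) (qn : Polynomial ℕ) (hqn : ∀ a, n a ≤ qn.eval (Code.code a).length)
    (hL : PTime fun a => units (n a) (p1 a) (p2 a)) :
    PTime fun a => colOf (n a) (p1 a) (p2 a) :=
  colourP (m := fun a => mate (n a) (p1 a) (p2 a)) (arcsP' hn hp1 hp2 qn hqn)
    (mateP (hn.comp PTime.fst) (hp1.comp PTime.fst) (hp2.comp PTime.fst) PTime.snd) hL

end Vale.Agent.P333.PT.T23
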