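import Vale.Agent.P333.PT.ProgP2
import Vale.Agent.P333.PT.ListS
import Vale.Agent.P333.T.Prog23

/-!
P333: the functions `pick`, `endE`, `endU`, `endArcs`, `spArcs` of the program `T/Prog23` are
polynomial time.
-/

namespace Vale.Agent.P333.PT.T23

open Vale.Agent.P337 Vale.Agent.P333 Vale.Agent.P333.PT

variable {α : Type} [Code α]

theorem pickP {S : α → List ((ℕ × ℕ) × ℕ)} {u v : α → ℕ} (hS : PTime S) (hu : PTime u)
    (hv : PTime v) : PTime fun a => T.pick (S a) (u a) (v a) := by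
  unfold T.pick
  refine PTime.lfindD (p := fun a (ab : ℕ × ℕ) => (S a).all (fun c =>
      (!(c.1.2 == u a) || (c.2 == ab.1)) && (!(c.1.1 == v a) || (c.2 == ab.2))))
    (PTime.const _) ?_ (PTime.const _)
  refine PTime.lall (p := fun (x : α × (ℕ × ℕ)) (c : (ℕ × ℕ) × ℕ) =>
      (!(c.1.2 == u x.1) || (c.2 == x.2.1)) && (!(c.1.1 == v x.1) || (c.2 == x.2.2)))
    (hS.comp PTime.fst) ?_
  have hc : PTime fun y : (α × (ℕ × ℕ)) × ((ℕ × ℕ) × ℕ) => y.2 := PTime.snd
  have hc1 : PTime fun y : (α × (ℕ × ℕ)) × ((ℕ × ℕ) × ℕ) => y.2.1 := PTime.fst.comp hc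
  have hc2 : PTime fun y : (α × (ℕ × ℕ)) × ((ℕ × ℕ) × ℕ) => y.2.2 := PTime.snd.comp hc
  have h0 : PTime fun y : (α × (ℕ × ℕ)) × ((ℕ × ℕ) × ℕ) => y.1.1 := PTime.fst.comp PTime.fst
  have h1 : PTime fun y : (α × (ℕ × ℕ)) × ((ℕ × ℕ) × ℕ) => y.1.2 := PTime.snd.comp PTime.fst
  exact PTime.and
    (PTime.or (PTime.not (PTime.beq (PTime.snd.comp hc1) (hu.comp h0)))
      (PTime.beq hc2 (PTime.fst.comp h1)))
    (PTime.or (PTime.not (PTime.beq (PTime.fst.comp hc1) (hv.comp h0)))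
      (PTime.beq hc2 (PTime.snd.comp h1)))

theorem endEP {S : α → List ((ℕ × ℕ) × ℕ)} {t x y : α → ℕ} (hS : PTime S) (ht : PTime t)
    (hx : PTime x) (hy : PTime y) : PTime fun a => T.endE (S a) (t a) (x a) (y a) := by
  have hp := pickP hS hx hy
  refine (PTime.ite (PTime.or (PTime.beq ht (PTime.fst.comp hp))
    (PTime.beq ht (PTime.snd.comp hp))) (PTime.cons' (hx.pair hy) PTime.nil')
    (PTime.cons' (hy.pair hx) PTime.nil')).congr fun a => ?_
  rfl

theorem endUP {w : α → ℕ → ℕ → ℕ} (hw : PTime fun x : α × ℕ × ℕ => w x.1 x.2.1 x.2.2)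
    {S : α → List ((ℕ × ℕ) × ℕ)} {t x y : α → ℕ} (hS : PTime S) (ht : PTime t)
    (hx : PTime x) (hy : PTime y) : PTime fun a => T.endU (w a) (S a) (t a) (x a) (y a) := by
  have hp := pickP hS hy hy
  have hxy : PTime fun a => w a (x a) (y a) := hw.comp (PTime.id.pair (hx.pair hy))
  have hyx : PTime fun a => w a (y a) (x a) := hw.comp (PTime.id.pair (hy.pair hx))
  have l1 : PTime fun a => [(x a, y a)] := PTime.cons' (hx.pair hy) PTime.nil'
  have l2 : PTime fun a => [(y a, x a)] := PTime.cons' (hy.pair hx) PTime.nil'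
  refine (PTime.ite (PTime.beq ht (PTime.fst.comp hp)) l2
    (PTime.ite (PTime.beq ht (PTime.snd.comp hp)) l1
      (PTime.ite (PTime.le hyx hxy) l1 l2))).congr fun a => ?_
  unfold T.endU
  simp only [decide_eq_true_eq]

/-- the arcs inside the pairs, for `isE` and `isU` given as polynomial time oracles -/
theorem endArcsP_of {w : α → ℕ → ℕ → ℕ} (hw : PTime fun x : α × ℕ × ℕ => w x.1 x.2.1 x.2.2)
    {n t : α → ℕ} {p1 p2 : α → List ℕ} {S : α → List ((ℕ × ℕ) × ℕ)} (hn : PTime n)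
    (hp1 : PTime p1) (hS : PTime S) (ht : PTime t)
    (qn : Polynomial ℕ) (hqn : ∀ a, n a ≤ qn.eval (Code.code a).length)
    (hE : PTime fun x : α × ℕ => T.isE (n x.1) (p1 x.1) (p2 x.1) x.2)
    (hU : PTime fun x : α × ℕ => T.isU (n x.1) (p1 x.1) (p2 x.1) x.2) :
    PTime fun a => T.endArcs (n a) (w a) (p1 a) (p2 a) (S a) (t a) := by
  unfold T.endArcs
  refine PTime.lflatten (PTime.lmap (g := fun a x =>
    if T.isE (n a) (p1 a) (p2 a) x then T.endE (S a) (t a) x (M.nx (p1 a) x)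
    else if T.isU (n a) (p1 a) (p2 a) x then T.endU (w a) (S a) (t a) x (M.nx (p1 a) x)
    else []) (PTime.lrange hn qn hqn) ?_)
  have hx : PTime fun x : α × ℕ => x.2 := PTime.snd
  have hy : PTime fun x : α × ℕ => M.nx (p1 x.1) x.2 := nxP2 (hp1.comp PTime.fst) PTime.snd
  exact PTime.ite hE (endEP (hS.comp PTime.fst) (ht.comp PTime.fst) hx hy)
    (PTime.ite hU (endUP (w := fun x : α × ℕ => w x.1)
      (hw.comp ((PTime.fst.comp PTime.fst).pair PTime.snd))
      (hS.comp PTime.fst) (ht.comp PTime.fst) hx hy) PTime.nil')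

/-- the arcs of the components without roots, for `level` given as a polynomial time oracle -/
theorem spArcsP_of {n : α → ℕ} {p1 p2 : α → List ℕ} (hn : PTime n) (hp1 : PTime p1)
    (qn : Polynomial ℕ) (hqn : ∀ a, n a ≤ qn.eval (Code.code a).length)
    (hL : PTime fun x : α × ℕ => T.level (n x.1) (p1 x.1) (p2 x.1) x.2) :
    PTime fun a => T.spArcs (n a) (p1 a) (p2 a) := by
  unfold T.spArcs
  exact arcsP (PTime.lfilter (p := fun a x => T.level (n a) (p1 a) (p2 a) x == n a + 1)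
    (PTime.lrange hn qn hqn)
    (PTime.beq hL (PTime.add (hn.comp PTime.fst) (PTime.const 1)))) hp1

end Vale.Agent.P333.PT.T23
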