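import Vale.Agent.P333.PT.T23A
import Vale.Agent.P333.PT.T23E1

/-!
P333: `endArcs` of the program `T/Prog23` is polynomial time.
-/

namespace Vale.Agent.P333.PT.T23

open Vale.Agent.P337 Vale.Agent.P333 Vale.Agent.P333.PT

variable {α : Type} [Code α]

theorem endArcsP {n t : α → ℕ} {p1 p2 : α → List ℕ} {w : α → ℕ → ℕ → ℕ}
    {S : α → List ((ℕ × ℕ) × ℕ)} (hn : PTime n)
    (hw : PTime fun x : α × ℕ × ℕ => w x.1 x.2.1 x.2.2)
    (hp1 : PTime p1) (hp2 : PTime p2) (hS : PTime S) (ht : PTime t)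
    (qn : Polynomial ℕ) (hqn : ∀ a, n a ≤ qn.eval (Code.code a).length) :
    PTime fun a => T.endArcs (n a) (w a) (p1 a) (p2 a) (S a) (t a) :=
  endArcsP_of hw hn hp1 hS ht qn hqn
    (isEP (hn.comp PTime.fst) (hp1.comp PTime.fst) (hp2.comp PTime.fst) PTime.snd)
    (isUP (hn.comp PTime.fst) (hp1.comp PTime.fst) (hp2.comp PTime.fst) PTime.snd)

end Vale.Agent.P333.PT.T23
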