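import Vale.Agent.P333.PT.T23B
import Vale.Agent.P333.PT.T23D
import Vale.Agent.P333.PT.T23E1b
import Vale.Agent.P333.PT.BreakP
import Vale.Agent.P333.PT.BoxDef

/-!
P333, box T (`T/Prog23`): the candidates and the whole program are polynomial time.
-/

namespace Vale.Agent.P333.PT.T23

open Vale.Agent.P337 Vale.Agent.P333 Vale.Agent.P333.T

variable {α β : Type} [Code α] [Code β]

theorem spArcsP {n : α → ℕ} {p1 p2 : α → List ℕ} (hn : PTime n) (hp1 : PTime p1)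
    (hp2 : PTime p2) (qn : Polynomial ℕ) (hqn : ∀ a, n a ≤ qn.eval (Code.code a).length) :
    PTime fun a => spArcs (n a) (p1 a) (p2 a) :=
  spArcsP_of hn hp1 qn hqn (levelP (α := α × ℕ) (hn.comp PTime.fst) (hp1.comp PTime.fst)
    (hp2.comp PTime.fst) PTime.snd qn (bound_fst hqn))

theorem colOfP {n : α → ℕ} {p1 p2 : α → List ℕ} (hn : PTime n) (hp1 : PTime p1)
    (hp2 : PTime p2) (qn : Polynomial ℕ) (hqn : ∀ a, n a ≤ qn.eval (Code.code a).length) :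
    PTime fun a => colOf (n a) (p1 a) (p2 a) :=
  colOfP_of hn hp1 hp2 qn hqn (unitsP hn hp1 hp2 qn hqn)

theorem candP {n : α → ℕ} {w : α → ℕ → ℕ → ℕ} {p1 p2 : α → List ℕ}
    {S : α → List ((ℕ × ℕ) × ℕ)} {t : α → ℕ} (hn : PTime n)
    (hw : PTime fun x : α × ℕ × ℕ => w x.1 x.2.1 x.2.2) (hp1 : PTime p1) (hp2 : PTime p2)
    (hS : PTime S) (ht : PTime t) (qn : Polynomial ℕ)
    (hqn : ∀ a, n a ≤ qn.eval (Code.code a).length) :
    PTime fun a => cand (n a) (w a) (p1 a) (p2 a) (S a) (t a) :=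
  PTime.lappend (clsP hS ht) (PTime.lappend (endArcsP hn hw hp1 hp2 hS ht qn hqn)
    (spArcsP hn hp1 hp2 qn hqn))

theorem bestOfP {n : α → ℕ} {w : α → ℕ → ℕ → ℕ} {p1 p2 : α → List ℕ}
    {S : α → List ((ℕ × ℕ) × ℕ)} (hn : PTime n)
    (hw : PTime fun x : α × ℕ × ℕ => w x.1 x.2.1 x.2.2) (hp1 : PTime p1) (hp2 : PTime p2)
    (hS : PTime S) (qn : Polynomial ℕ) (hqn : ∀ a, n a ≤ qn.eval (Code.code a).length) :
    PTime fun a => bestOf (n a) (w a) (p1 a) (p2 a) (S a) := by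
  have hr : PTime fun a => List.range (n a) := PTime.lrange hn qn hqn
  have hc : ∀ t : ℕ, PTime fun a =>
      M.breakF (w a) (List.range (n a)) (cand (n a) (w a) (p1 a) (p2 a) (S a) t) := fun t =>
    breakFP hw hr (candP hn hw hp1 hp2 hS (PTime.const t) qn hqn)
  exact heavierP hw (hc 0) (heavierP hw (hc 1) (hc 2))

theorem atspOfP {n : α → ℕ} {w : α → ℕ → ℕ → ℕ} {p1 p2 : α → List ℕ} (hn : PTime n)
    (hw : PTime fun x : α × ℕ × ℕ => w x.1 x.2.1 x.2.2) (hp1 : PTime p1) (hp2 : PTime p2)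
    (qn : Polynomial ℕ) (hqn : ∀ a, n a ≤ qn.eval (Code.code a).length) :
    PTime fun a => T.atspOf (n a) (w a) (p1 a) (p2 a) :=
  bestOfP hn hw hp1 hp2 (colOfP hn hp1 hp2 qn hqn) qn hqn

theorem atspOf1P {n C : α → ℕ} {w : α → ℕ → ℕ → ℕ} {p1 : α → List ℕ} (hn : PTime n)
    (hC : PTime C) (hw : PTime fun x : α × ℕ × ℕ => w x.1 x.2.1 x.2.2) (hp1 : PTime p1)
    (qn qC : Polynomial ℕ) (hqn : ∀ a, n a ≤ qn.eval (Code.code a).length)
    (hqC : ∀ a, C a ≤ qC.eval (Code.code a).length) :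
    PTime fun a => T.atspOf1 (n a) (C a) (w a) (p1 a) :=
  atspOfP hn hw hp1 (asg2P hn hC hw hp1 qn qC hqn hqC) qn hqn

theorem atspP {n C : α → ℕ} {w : α → ℕ → ℕ → ℕ} (hn : PTime n) (hC : PTime C)
    (hw : PTime fun x : α × ℕ × ℕ => w x.1 x.2.1 x.2.2) (qn qC : Polynomial ℕ)
    (hqn : ∀ a, n a ≤ qn.eval (Code.code a).length)
    (hqC : ∀ a, C a ≤ qC.eval (Code.code a).length) :
    PTime fun a => T.atsp (n a) (C a) (w a) :=
  atspOf1P hn hC hw (assignP hn hC (w := fun a => M.wt1 (w a)) (wt1P hw) qn qC hqn hqC) qn qC hqn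
    hqC

/-- the program of box T is a polynomial time box -/
theorem boxP_23 : BoxP T.atsp := fun _ _ _ _ _ hn hC hw qn qC hqn hqC =>
  atspP hn hC hw qn qC hqn hqC

end Vale.Agent.P333.PT.T23
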